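import Mathlib

/-!
# P159: counting orientations of a multigraph with prescribed divergence

The switching inequality behind the Lieb-Rivasseau inequality of the plane rotor.
-/

namespace Vale.Agent.P159

open Finset

variable {V : Type} [Fintype V] [DecidableEq V]

/-- The unit charge at a vertex. -/
def pt (v : V) : V → ℤ := Pi.single v 1

/-- The divergence of an edge. -/
def dvg (e : V × V) : V → ℤ := pt e.1 - pt e.2

/-- The number of orientations of the edge list `l` with divergence `D`. -/
def orient : List (V × V) → (V → ℤ) → ℤ
  | [], D => if D = 0 then 1 else 0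
  | e :: l, D => orient l (D - dvg e) + orient l (D + dvg e)

theorem orient_nonneg (l : List (V × V)) (D : V → ℤ) : 0 ≤ orient l D := by
  induction l generalizing D with
  | nil => simp only [orient]; split_ifs <;> norm_num
  | cons e l ih => exact add_nonneg (ih _) (ih _)

theorem orient_neg (l : List (V × V)) (D : V → ℤ) : orient l (-D) = orient l D := by
  induction l generalizing D with
  | nil => simp only [orient, neg_eq_zero]
  | cons e l ih =>
    simp only [orient]
    rw [show -D - dvg e = -(D + dvg e) by abel, show -D + dvg e = -(D - dvg e) by abel, ih, ih]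
    ring

/-- Orientations weighted by the out-degree at `w`, each split at the marked edge. -/
def outs (w : V) (l : List (V × V)) (D : V → ℤ) : ℤ :=
  ∑ i : Fin l.length, ((if (l.get i).1 = w then orient (l.eraseIdx i) (D - dvg (l.get i)) else 0) +
    if (l.get i).2 = w then orient (l.eraseIdx i) (D + dvg (l.get i)) else 0)

/-- The degree of `w` in the list. -/
def deg (w : V) : List (V × V) → ℤ
  | [] => 0
  | e :: l => (if e.1 = w then 1 else 0) + (if e.2 = w then 1 else 0) + deg w l

theorem deg_nonneg (w : V) (l : List (V × V)) : 0 ≤ deg w l := by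
  induction l with
  | nil => simp [deg]
  | cons e l ih => simp only [deg]; split_ifs <;> omega

theorem dvg_apply (e : V × V) (w : V) :
    dvg e w = (if e.1 = w then 1 else 0) - if e.2 = w then 1 else 0 := by
  simp [dvg, pt, Pi.single_apply, eq_comm]

theorem outs_cons (w : V) (e : V × V) (l : List (V × V)) (D : V → ℤ) :
    outs w (e :: l) D = (if e.1 = w then orient l (D - dvg e) else 0) +
      (if e.2 = w then orient l (D + dvg e) else 0) + outs w l (D - dvg e) + outs w l (D + dvg e) := by
  simp only [outs, List.length_cons, Fin.sum_univ_succ, List.get_eq_getElem, Fin.val_zero,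
    List.getElem_cons_zero, List.eraseIdx_cons_zero, Fin.val_succ, List.getElem_cons_succ,
    List.eraseIdx_cons_succ, orient]
  rw [add_assoc _ (∑ i : Fin l.length, _) (∑ i : Fin l.length, _), ← sum_add_distrib]
  congr 1
  refine sum_congr rfl fun i _ => ?_
  simp only [show ∀ x y : V → ℤ, D - x + y = D + y - x from fun x y => by abel,
    show ∀ x y : V → ℤ, D - x - y = D - y - x from fun x y => by abel,
    show ∀ x y : V → ℤ, D + x + y = D + y + x from fun x y => by abel]
  split_ifs <;> ring

theorem two_mul_outs (w : V) (l : List (V × V)) (D : V → ℤ) :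
    2 * outs w l D = (deg w l + D w) * orient l D := by
  induction l generalizing D with
  | nil =>
    by_cases h : D = 0
    · simp [outs, orient, deg, h]
    · simp [outs, orient, deg, h]
  | cons e l ih =>
    rw [outs_cons, mul_add, mul_add, ih, ih]
    simp only [Pi.sub_apply, Pi.add_apply, dvg_apply, deg, orient]
    split_ifs <;> ring

/-- Switching: moving the excess at `w` to one of the deficits dominates. -/
theorem orient_switch : ∀ (m : ℕ) (l : List (V × V)), l.length = m → ∀ (P Q : V → ℕ) (w : V),
    1 ≤ P w → orient l (fun v => (P v : ℤ) - Q v) ≤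
      ∑ u, (Q u : ℤ) * orient l ((fun v => (P v : ℤ) - Q v) - 2 • pt w + 2 • pt u) := by
  intro m
  induction m using Nat.strong_induction_on with
  | _ m ih =>
    intro l hl P Q w hP
    set D : V → ℤ := fun v => (P v : ℤ) - Q v with hD
    have hnn : ∀ u, 0 ≤ (Q u : ℤ) * orient l (D - 2 • pt w + 2 • pt u) := fun u =>
      mul_nonneg (by positivity) (orient_nonneg _ _)
    by_cases hQ : 1 ≤ Q w
    · refine le_trans ?_ (single_le_sum (fun u _ => hnn u) (mem_univ w))
      rw [sub_add_cancel]
      exact le_mul_of_one_le_left (orient_nonneg _ _) (by exact_mod_cast hQ)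
    have hQ0 : Q w = 0 := by omega
    have hDw : 1 ≤ D w := by simp [hD, hQ0]; omega
    have hd := deg_nonneg w l
    refine le_of_mul_le_mul_left ?_ (show 0 < deg w l + D w by omega)
    rw [← two_mul_outs]
    have hR : ∀ u, (Q u : ℤ) * (2 * outs w l (-(D - 2 • pt w + 2 • pt u))) ≤
        (deg w l + D w) * ((Q u : ℤ) * orient l (D - 2 • pt w + 2 • pt u)) := by
      intro u
      rw [two_mul_outs, orient_neg, ← mul_assoc, ← mul_assoc, mul_comm (deg w l + D w)]
      refine mul_le_mul_of_nonneg_right ?_ (orient_nonneg _ _)
      by_cases hu : u = w
      · simp [hu, hQ0]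
      · refine mul_le_mul_of_nonneg_left ?_ (by positivity)
        have : (D - 2 • pt w + 2 • pt u) w = D w - 2 := by simp [pt, Ne.symm hu]
        simp only [Pi.neg_apply, this]
        omega
    rw [mul_sum]
    refine le_trans ?_ (sum_le_sum fun u _ => hR u)
    simp only [outs, mul_sum]
    rw [sum_comm]
    refine sum_le_sum fun i _ => ?_
    have hlen : (l.eraseIdx i).length < m := by
      rw [← hl, List.length_eraseIdx_of_lt i.isLt]; have := i.isLt; omega
    have key : ∀ y : V, orient (l.eraseIdx i) (D - pt w + pt y) ≤
        ∑ u, (Q u : ℤ) * orient (l.eraseIdx i) (D - pt w - pt y + 2 • pt u) := by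
      intro y
      have h := ih _ hlen (l.eraseIdx i) rfl
        (fun v => P v - (if v = w then 1 else 0) + if v = y then 1 else 0) Q y (by simp)
      have e : (fun v => (((P v - (if v = w then 1 else 0) + if v = y then 1 else 0 : ℕ)) : ℤ) - Q v)
          = D - pt w + pt y := by
        funext v
        simp only [hD, Pi.add_apply, Pi.sub_apply, pt, Pi.single_apply]
        have hv : v = w → 1 ≤ P v := fun h => h ▸ hP
        simp only [Nat.cast_add]
        by_cases h1 : v = w
        · have := hv h1
          simp only [h1, if_true] at *
          push_cast [this]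
          split_ifs <;> omega
        · simp only [h1, if_false]
          split_ifs <;> omega
      rw [e] at h
      refine h.trans_eq (sum_congr rfl fun u _ => ?_)
      congr 2
      simp only [two_nsmul]
      abel
    obtain ⟨a, b⟩ := l.get i
    simp only [mul_add, sum_add_distrib]
    refine add_le_add ?_ ?_
    · rcases eq_or_ne a w with rfl | ha
      · simp only [if_true]
        rw [show D - dvg (a, b) = D - pt a + pt b by simp only [dvg]; abel]
        refine (mul_le_mul_of_nonneg_left (key b) zero_le_two).trans_eq ?_
        rw [mul_sum]
        refine sum_congr rfl fun u _ => ?_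
        rw [show -(D - 2 • pt a + 2 • pt u) - dvg (a, b) = -(D - pt a - pt b + 2 • pt u) by
          simp only [dvg, two_nsmul]; abel, orient_neg]
        ring
      · simp [ha]
    · rcases eq_or_ne b w with rfl | hb
      · simp only [if_true]
        rw [show D + dvg (a, b) = D - pt b + pt a by simp only [dvg]; abel]
        refine (mul_le_mul_of_nonneg_left (key a) zero_le_two).trans_eq ?_
        rw [mul_sum]
        refine sum_congr rfl fun u _ => ?_
        rw [show -(D - 2 • pt b + 2 • pt u) + dvg (a, b) = -(D - pt b - pt a + 2 • pt u) by
          simp only [dvg, two_nsmul]; abel, orient_neg]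
        ring
      · simp [hb]

end Vale.Agent.P159
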