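import Vale.Agent.P159.Reflect
import Vale.Agent.P163.Lattice

/-!
# P159: the square lattice, the limiting correlation and exponential bounds from one direction
-/

namespace Vale.Agent.P159

open Finset Filter Vale.Agent.P163
open scoped Topology

/-- The two-point function of the free-boundary XY model on a finite set of sites, zero outside it. -/
noncomputable def corr (b : ℝ) (A : Finset (ℤ × ℤ)) (x y : ℤ × ℤ) : ℝ :=
  if h : x ∈ A ∧ y ∈ A then xyCorr (latticeCoupling A b) ⟨x, h.1⟩ ⟨y, h.2⟩ else 0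

/-- The box `[-R,R]²`. -/
noncomputable def box (R : ℕ) : Finset (ℤ × ℤ) := Icc (-(R : ℤ), -(R : ℤ)) ((R : ℤ), (R : ℤ))

/-- `C_b(r)`, the infinite-volume two-point function along the axis. -/
noncomputable def twoPoint (b : ℝ) (r : ℕ) : ℝ := ⨆ R : ℕ, corr b (box R) (0, 0) ((r : ℤ), 0)

/-- `μ` is a rate of exponential decay of `C_b`. -/
def HasRate (b μ : ℝ) : Prop := ∃ K : ℝ, ∀ r : ℕ, twoPoint b r ≤ K * Real.exp (-μ * r)

/-- The critical point, as an element of `[0,∞]`. -/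
noncomputable def critical : ENNReal :=
  sInf (ENNReal.ofReal '' {b : ℝ | 0 < b ∧ ∀ μ, 0 < μ → ¬HasRate b μ})

/-- The sup norm. -/
def nrm (v : ℤ × ℤ) : ℕ := max v.1.natAbs v.2.natAbs

/-- Symmetrised bond weight. -/
noncomputable def wt (b : ℝ) (p q : ℤ × ℤ) : ℝ :=
  if (p.1 - q.1).natAbs + (p.2 - q.2).natAbs = 1 then b / 2 else 0

/-- Symmetrised coupling on a finite set. -/
noncomputable def lat (A : Finset (ℤ × ℤ)) (b : ℝ) (p q : {v // v ∈ A}) : ℝ := wt b p.1 q.1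

theorem wt_nonneg {b : ℝ} (hb : 0 ≤ b) (p q : ℤ × ℤ) : 0 ≤ wt b p q := by
  unfold wt; split_ifs <;> linarith

theorem lat_nonneg {A : Finset (ℤ × ℤ)} {b : ℝ} (hb : 0 ≤ b) (p q : {v // v ∈ A}) : 0 ≤ lat A b p q :=
  wt_nonneg hb _ _

theorem sym_latticeCoupling (A : Finset (ℤ × ℤ)) (b : ℝ) : sym (latticeCoupling A b) = lat A b := by
  funext ⟨⟨a, c⟩, ha⟩ ⟨⟨a', c'⟩, hb⟩
  simp only [sym, latticeCoupling, lat, wt, Prod.mk_add_mk, Prod.mk.injEq]
  split_ifs with h1 h2 h3 <;> first | omega | ring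

theorem sym_lat (A : Finset (ℤ × ℤ)) (b : ℝ) (p q : {v // v ∈ A}) : sym (lat A b) p q = lat A b p q := by
  simp only [sym, lat, wt]
  split_ifs <;> first | omega | ring

theorem corr_of_mem {A : Finset (ℤ × ℤ)} {x y : ℤ × ℤ} (b : ℝ) (hx : x ∈ A) (hy : y ∈ A) :
    corr b A x y = xyCorr (lat A b) ⟨x, hx⟩ ⟨y, hy⟩ := by
  rw [corr, dif_pos ⟨hx, hy⟩, ← xyCorr_sym, sym_latticeCoupling]

theorem corr_nonneg {b : ℝ} (hb : 0 ≤ b) (A : Finset (ℤ × ℤ)) (x y : ℤ × ℤ) : 0 ≤ corr b A x y := by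
  unfold corr
  split_ifs
  · exact xyCorr_nonneg _ (latticeCoupling_nonneg A hb) _ _
  · exact le_rfl

theorem corr_le_one (b : ℝ) (A : Finset (ℤ × ℤ)) (x y : ℤ × ℤ) : corr b A x y ≤ 1 := by
  unfold corr
  split_ifs
  · exact xyCorr_le_one _ _ _
  · exact zero_le_one

theorem corr_comm (b : ℝ) (A : Finset (ℤ × ℤ)) (x y : ℤ × ℤ) : corr b A x y = corr b A y x := by
  unfold corr
  by_cases h : x ∈ A ∧ y ∈ A
  · rw [dif_pos h, dif_pos h.symm, xyCorr_comm]
  · rw [dif_neg h, dif_neg fun h' => h h'.symm]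

theorem corr_mono_b {b b' : ℝ} (hb : 0 ≤ b) (h : b ≤ b') (A : Finset (ℤ × ℤ)) (x y : ℤ × ℤ) :
    corr b A x y ≤ corr b' A x y := by
  unfold corr
  split_ifs
  · refine xyCorr_mono _ _ (latticeCoupling_nonneg A hb) (fun a c => ?_) _ _
    unfold latticeCoupling; split_ifs <;> linarith
  · exact le_rfl

theorem corr_mono_set {b : ℝ} (hb : 0 ≤ b) {A B : Finset (ℤ × ℤ)} (h : A ⊆ B) (x y : ℤ × ℤ) :
    corr b A x y ≤ corr b B x y := by
  by_cases hxy : x ∈ A ∧ y ∈ A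
  · rw [corr_of_mem b hxy.1 hxy.2, corr_of_mem b (h hxy.1) (h hxy.2)]
    set f : {v // v ∈ A} → {v // v ∈ B} := fun v => ⟨v.1, h v.2⟩
    set J : {v // v ∈ B} → {v // v ∈ B} → ℝ := fun p q =>
      if p.1 ∈ A ∧ q.1 ∈ A then lat B b p q else 0
    have e := xyCorr_map (f := f) (fun p q hpq => Subtype.ext (Subtype.mk.inj hpq))
      (J := lat A b) (J' := J) (fun p q => by simp [J, f, lat, p.2, q.2])
      (fun p q hne => by
        by_cases hm : p.1 ∈ A ∧ q.1 ∈ A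
        · exact ⟨⟨⟨p.1, hm.1⟩, rfl⟩, ⟨⟨q.1, hm.2⟩, rfl⟩⟩
        · simp [J, hm] at hne) ⟨x, hxy.1⟩ ⟨y, hxy.2⟩
    rw [← e]
    refine xyCorr_mono _ _ (fun p q => ?_) (fun p q => ?_) _ _ <;> simp only [J] <;> split_ifs
    · exact lat_nonneg hb _ _
    · exact le_rfl
    · exact le_rfl
    · exact lat_nonneg hb _ _
  · rw [corr, dif_neg hxy]; exact corr_nonneg hb B x y

theorem corr_image {b : ℝ} (A : Finset (ℤ × ℤ)) (φ : ℤ × ℤ → ℤ × ℤ) (hφ : Function.Injective φ)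
    (hw : ∀ p q, wt b (φ p) (φ q) = wt b p q) (x y : ℤ × ℤ) :
    corr b (A.image φ) (φ x) (φ y) = corr b A x y := by
  by_cases hxy : x ∈ A ∧ y ∈ A
  · rw [corr_of_mem b hxy.1 hxy.2, corr_of_mem b (mem_image_of_mem φ hxy.1) (mem_image_of_mem φ hxy.2)]
    exact xyCorr_map (f := fun v : {v // v ∈ A} => (⟨φ v.1, mem_image_of_mem φ v.2⟩ : {v // v ∈ A.image φ}))
      (fun p q hpq => Subtype.ext (hφ (congrArg Subtype.val hpq))) (fun p q => hw _ _)
      (fun p q _ => ⟨by obtain ⟨a, ha, e⟩ := mem_image.1 p.2; exact ⟨⟨a, ha⟩, Subtype.ext e⟩,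
        by obtain ⟨a, ha, e⟩ := mem_image.1 q.2; exact ⟨⟨a, ha⟩, Subtype.ext e⟩⟩) ⟨x, hxy.1⟩ ⟨y, hxy.2⟩
  · have h2 : ¬(φ x ∈ A.image φ ∧ φ y ∈ A.image φ) := by
      simpa [mem_image, hφ.eq_iff] using hxy
    rw [corr, corr, dif_neg hxy, dif_neg h2]

theorem corr_shift (b : ℝ) (A : Finset (ℤ × ℤ)) (t x y : ℤ × ℤ) :
    corr b (A.image (· + t)) (x + t) (y + t) = corr b A x y :=
  corr_image A _ (add_left_injective t) (fun p q => by simp [wt]) x y

theorem exists_box (A : Finset (ℤ × ℤ)) : ∃ R, A ⊆ box R := by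
  refine ⟨A.sup nrm, fun v hv => ?_⟩
  have h := le_sup (f := nrm) hv
  simp only [nrm, max_le_iff] at h
  simp only [box, mem_Icc, Prod.le_def]
  refine ⟨⟨?_, ?_⟩, ?_, ?_⟩ <;> omega

theorem box_mono {R R' : ℕ} (h : R ≤ R') : box R ⊆ box R' :=
  fun v hv => by simp only [box, mem_Icc, Prod.le_def] at hv ⊢; omega

theorem bddAbove_corr (b : ℝ) (r : ℕ) :
    BddAbove (Set.range fun R : ℕ => corr b (box R) (0, 0) ((r : ℤ), 0)) :=
  ⟨1, by rintro _ ⟨R, rfl⟩; exact corr_le_one _ _ _ _⟩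

theorem tendsto_twoPoint {b : ℝ} (hb : 0 ≤ b) (r : ℕ) :
    Tendsto (fun R : ℕ => corr b (box R) (0, 0) ((r : ℤ), 0)) atTop (𝓝 (twoPoint b r)) :=
  tendsto_atTop_ciSup (fun _ _ h => corr_mono_set hb (box_mono h) _ _) (bddAbove_corr b r)

theorem twoPoint_nonneg {b : ℝ} (hb : 0 ≤ b) (r : ℕ) : 0 ≤ twoPoint b r :=
  (corr_nonneg hb _ _ _).trans (le_ciSup (bddAbove_corr b r) 0)

theorem twoPoint_le_one (b : ℝ) (r : ℕ) : twoPoint b r ≤ 1 := ciSup_le fun _ => corr_le_one _ _ _ _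

theorem twoPoint_mono {b b' : ℝ} (hb : 0 ≤ b) (h : b ≤ b') (r : ℕ) : twoPoint b r ≤ twoPoint b' r :=
  ciSup_le fun R => (corr_mono_b hb h _ _ _).trans (le_ciSup (bddAbove_corr b' r) R)

theorem corr_le_twoPoint {b : ℝ} (hb : 0 ≤ b) (A : Finset (ℤ × ℤ)) (x y : ℤ × ℤ) (hy : y.2 = x.2) :
    corr b A x y ≤ twoPoint b (y.1 - x.1).natAbs := by
  wlog h : x.1 ≤ y.1 generalizing x y
  · rw [corr_comm, show (y.1 - x.1).natAbs = (x.1 - y.1).natAbs by omega]
    exact this y x hy.symm (by omega)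
  obtain ⟨R, hR⟩ := exists_box (A.image (· + -x))
  rw [← corr_shift b A (-x) x y]
  refine (corr_mono_set hb hR _ _).trans ((le_ciSup (bddAbove_corr b _) R).trans_eq' ?_)
  congr 1
  · simp [Prod.ext_iff]
  · ext <;> simp [abs_of_nonneg (show 0 ≤ y.1 - x.1 by omega)] <;> omega

/-- Reflection in the line midway between the columns `j` and `j + 1`. -/
theorem corr_reflect {b : ℝ} (hb : 0 ≤ b) (A : Finset (ℤ × ℤ)) {j k y : ℤ} (hj : 0 ≤ j) (hk : j + 1 ≤ k) :
    corr b A (0, 0) (k, y) ^ 2 ≤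
      twoPoint b (2 * k - 2 * j - 1).natAbs * twoPoint b (2 * j + 1).natAbs := by
  by_cases hA : (0, 0) ∈ A ∧ (k, y) ∈ A
  swap
  · rw [corr, dif_neg hA, zero_pow two_ne_zero]
    exact mul_nonneg (twoPoint_nonneg hb _) (twoPoint_nonneg hb _)
  obtain ⟨N₀, hN₀⟩ := exists_box A
  set N : ℤ := N₀ + j + 1 with hN
  set U := Icc (j + 1, -N) (j + 1 + N, N) with hU
  set W := Icc (j - N, -N) (j + 1 + N, N) with hW
  set σ : ℤ × ℤ → ℤ × ℤ := fun z => (2 * j + 1 - z.1, z.2) with hσ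
  have hAW : A ⊆ W := fun v hv => by
    have := hN₀ hv
    simp only [box, hW, mem_Icc, Prod.le_def] at this ⊢; omega
  have hσW : ∀ v : {v // v ∈ U}, σ v.1 ∈ W := fun v => by
    have := v.2
    simp only [hU, hW, hσ, mem_Icc, Prod.le_def] at this ⊢; omega
  have hUW : ∀ v : {v // v ∈ U}, v.1 ∈ W := fun v => by
    have := v.2
    simp only [hU, hW, mem_Icc, Prod.le_def] at this ⊢; omega
  set f : {v // v ∈ U} ⊕ {v // v ∈ U} → {v // v ∈ W} :=
    Sum.elim (fun v => ⟨v.1, hUW v⟩) (fun v => ⟨σ v.1, hσW v⟩) with hf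
  set c : {v // v ∈ U} → ℝ := fun v => if v.1.1 = j + 1 then b else 0
  have hinj : Function.Injective f := by
    rintro (⟨⟨a, a'⟩, ha⟩ | ⟨⟨a, a'⟩, ha⟩) (⟨⟨d, d'⟩, hd⟩ | ⟨⟨d, d'⟩, hd⟩) h <;>
      simp only [hf, Sum.elim_inl, Sum.elim_inr, Subtype.mk.injEq, hσ, Prod.mk.injEq] at h <;>
      simp only [hU, mem_Icc, Prod.le_def] at ha hd <;>
      simp only [Sum.inl.injEq, Sum.inr.injEq, Subtype.mk.injEq, Prod.mk.injEq, reduceCtorEq] <;> omega
  have hJ : ∀ p q, lat W b (f p) (f q) = mirror (lat U b) c p q := by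
    rintro (⟨⟨a, a'⟩, ha⟩ | ⟨⟨a, a'⟩, ha⟩) (⟨⟨d, d'⟩, hd⟩ | ⟨⟨d, d'⟩, hd⟩) <;>
      simp only [hf, Sum.elim_inl, Sum.elim_inr, mirror, lat, wt, hσ, c, Subtype.mk.injEq, Prod.mk.injEq] <;>
      simp only [hU, mem_Icc, Prod.le_def] at ha hd <;>
      split_ifs <;> first | omega | rfl | simp
  have hsurj : ∀ p : {v // v ∈ W}, p ∈ Set.range f := by
    rintro ⟨⟨a, a'⟩, ha⟩
    simp only [hW, mem_Icc, Prod.le_def] at ha
    rcases le_or_gt (j + 1) a with h | h
    · exact ⟨.inl ⟨(a, a'), by simp only [hU, mem_Icc, Prod.le_def]; omega⟩, rfl⟩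
    · exact ⟨.inr ⟨(2 * j + 1 - a, a'), by simp only [hU, mem_Icc, Prod.le_def]; omega⟩,
        Subtype.ext (by simp [hf, hσ])⟩
  have h0U : (2 * j + 1, (0 : ℤ)) ∈ U := by
    simp only [hU, mem_Icc, Prod.le_def]; omega
  have hkU : (k, y) ∈ U := by
    have := hN₀ hA.2
    simp only [box, hU, mem_Icc, Prod.le_def] at this ⊢; omega
  have e := fun p q => xyCorr_map hinj hJ (fun a c _ => ⟨hsurj a, hsurj c⟩) p q
  have h := reflection (lat U b) (c := c) (fun v => by simp only [c]; split_ifs <;> linarith)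
    ⟨_, hkU⟩ ⟨_, h0U⟩
  rw [← e, ← e, ← e, ← corr_of_mem b, ← corr_of_mem b, ← corr_of_mem b] at h
  refine le_trans ?_ (h.trans ?_)
  · refine pow_le_pow_left₀ (corr_nonneg hb _ _ _) ?_ 2
    refine (corr_mono_set hb hAW _ _).trans_eq ?_
    rw [corr_comm]
    simp [hf, hσ]
  · refine mul_le_mul ?_ ?_ (corr_nonneg hb _ _ _) (twoPoint_nonneg hb _)
    · refine (corr_le_twoPoint hb _ _ _ ?_).trans_eq ?_
      · simp [hf, hσ]
      · simp only [hf, hσ, Sum.elim_inl, Sum.elim_inr]; congr 1; omega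
    · refine (corr_le_twoPoint hb _ _ _ ?_).trans_eq ?_
      · simp [hf, hσ]
      · simp only [hf, hσ, Sum.elim_inl, Sum.elim_inr]; congr 1; omega

theorem odd_decay {b μ : ℝ} (hb : 0 ≤ b) (h : HasRate b μ) :
    ∀ i : ℕ, twoPoint b (2 * i + 1) * Real.exp (2 * μ * i) ≤ 1 := by
  obtain ⟨K, hK⟩ := h
  set q : ℕ → ℝ := fun i => twoPoint b (2 * i + 1) * Real.exp (2 * μ * i) with hq
  have hq0 : ∀ i, 0 ≤ q i := fun i => mul_nonneg (twoPoint_nonneg hb _) (Real.exp_pos _).le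
  have hbd : ∀ i, q i ≤ K * Real.exp (-μ) := fun i => by
    refine (mul_le_mul_of_nonneg_right (hK _) (Real.exp_pos _).le).trans_eq ?_
    rw [mul_assoc, ← Real.exp_add]; congr 2; push_cast; ring
  have hconv : ∀ i, q (i + 1) ^ 2 ≤ q i * q (i + 2) := fun i => by
    have h2 : twoPoint b (2 * i + 3) ^ 2 ≤ twoPoint b (2 * i + 5) * twoPoint b (2 * i + 1) := by
      refine le_of_tendsto' ((tendsto_twoPoint hb _).pow 2) fun R => ?_
      refine (corr_reflect hb _ (j := (i : ℤ)) (by positivity) (by omega)).trans_eq ?_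
      congr 2 <;> omega
    simp only [hq, mul_pow, show 2 * (i + 1) + 1 = 2 * i + 3 by ring, show 2 * (i + 2) + 1 = 2 * i + 5 by ring]
    refine (mul_le_mul_of_nonneg_right h2 (sq_nonneg _)).trans_eq ?_
    rw [sq, ← Real.exp_add]
    rw [show 2 * μ * ((i + 1 : ℕ) : ℝ) + 2 * μ * ((i + 1 : ℕ) : ℝ) =
      2 * μ * (i : ℝ) + 2 * μ * ((i + 2 : ℕ) : ℝ) by push_cast; ring, Real.exp_add]
    ring
  intro i
  induction i with
  | zero => simpa using twoPoint_le_one b 1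
  | succ i ih =>
    by_contra hc
    rw [not_le] at hc
    change q i ≤ 1 at ih
    change 1 < q (i + 1) at hc
    set ρ := q (i + 1) with hρ
    have hgrow : ∀ n, ρ * q (i + n) ≤ q (i + n + 1) ∧ 0 < q (i + n + 1) := by
      intro n
      induction n with
      | zero => exact ⟨mul_le_of_le_one_right (by linarith) ih, by linarith⟩
      | succ n hn =>
        have h1 := hconv (i + n)
        have hpos : 0 < q (i + n) := by
          rcases (hq0 (i + n)).lt_or_eq with h' | h'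
          · exact h'
          · rw [← h', zero_mul] at h1; nlinarith [hn.2]
        have h2 : ρ * q (i + n + 1) ≤ q (i + n + 2) := by
          refine le_of_mul_le_mul_left ?_ hpos
          nlinarith [mul_le_mul_of_nonneg_left hn.1 hn.2.le]
        exact ⟨h2, lt_of_lt_of_le (mul_pos (by linarith) hn.2) h2⟩
    have hpow : ∀ n : ℕ, ρ ^ (n + 1) ≤ q (i + n + 1) := by
      intro n
      induction n with
      | zero => simp [hρ]
      | succ n hn =>
        refine le_trans ?_ (hgrow (n + 1)).1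
        rw [pow_succ']
        exact mul_le_mul_of_nonneg_left hn (by linarith)
    obtain ⟨n, hn⟩ := pow_unbounded_of_one_lt (K * Real.exp (-μ)) hc
    exact absurd ((pow_le_pow_right₀ hc.le n.le_succ).trans ((hpow n).trans (hbd _))) (not_le.2 hn)

/-- A rate along the axis bounds every two-point function. -/
theorem corr_decay {b μ : ℝ} (hb : 0 ≤ b) (hμ : 0 ≤ μ) (h : HasRate b μ) (A : Finset (ℤ × ℤ))
    (x y : ℤ × ℤ) : corr b A x y ≤ Real.exp μ * Real.exp (-μ * nrm (y - x)) := by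
  have hodd : ∀ i : ℕ, twoPoint b (2 * i + 1) ≤ Real.exp (-(2 * μ * i)) := fun i => by
    rw [Real.exp_neg, ← one_div, le_div_iff₀ (Real.exp_pos _)]; exact odd_decay hb h i
  have key : ∀ (A : Finset (ℤ × ℤ)) (k : ℕ) (z : ℤ),
      corr b A (0, 0) ((k : ℤ), z) ≤ Real.exp μ * Real.exp (-μ * k) := by
    intro A k z
    rw [← Real.exp_add]
    rcases Nat.eq_zero_or_pos k with rfl | hk
    · exact (corr_le_one _ _ _ _).trans (Real.one_le_exp (by simp [hμ]))
    refine le_of_pow_le_pow_left₀ two_ne_zero (Real.exp_pos _).le ?_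
    rw [← Real.exp_nat_mul]
    obtain ⟨i, hi | hi⟩ := Nat.even_or_odd' k
    · subst hi
      refine (corr_reflect hb A (j := (i : ℤ)) (by positivity) (by omega)).trans ?_
      rw [show (2 * ((2 * i : ℕ) : ℤ) - 2 * (i : ℤ) - 1).natAbs = 2 * (i - 1) + 1 by omega,
        show (2 * (i : ℤ) + 1).natAbs = 2 * i + 1 by omega]
      refine (mul_le_mul (hodd _) (hodd _) (twoPoint_nonneg hb _) (Real.exp_pos _).le).trans ?_
      rw [← Real.exp_add]
      refine Real.exp_le_exp.2 (le_of_eq ?_)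
      rw [Nat.cast_sub (by omega : 1 ≤ i)]; push_cast; ring
    · subst hi
      refine (corr_reflect hb A (j := (i : ℤ)) (by positivity) (by omega)).trans ?_
      rw [show (2 * ((2 * i + 1 : ℕ) : ℤ) - 2 * (i : ℤ) - 1).natAbs = 2 * i + 1 by omega,
        show (2 * (i : ℤ) + 1).natAbs = 2 * i + 1 by omega]
      refine (mul_le_mul (hodd _) (hodd _) (twoPoint_nonneg hb _) (Real.exp_pos _).le).trans ?_
      rw [← Real.exp_add]
      refine Real.exp_le_exp.2 (le_of_eq ?_)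
      push_cast; ring
  have one : ∀ (A : Finset (ℤ × ℤ)) (x y : ℤ × ℤ),
      corr b A x y ≤ Real.exp μ * Real.exp (-μ * ((y.1 - x.1).natAbs : ℕ)) := by
    intro A x y
    wlog hxy : x.1 ≤ y.1 generalizing x y
    · rw [corr_comm, show (y.1 - x.1).natAbs = (x.1 - y.1).natAbs by omega]; exact this y x (by omega)
    rw [← corr_shift b A (-x) x y]
    convert key _ (y.1 - x.1).natAbs (y.2 - x.2) using 2
    · simp [Prod.ext_iff]
    · ext <;> simp [abs_of_nonneg (show 0 ≤ y.1 - x.1 by omega)] <;> omega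
  rcases le_total (y.2 - x.2).natAbs (y.1 - x.1).natAbs with h' | h'
  · rw [nrm, Prod.fst_sub, Prod.snd_sub, max_eq_left h']; exact one A x y
  · rw [nrm, Prod.fst_sub, Prod.snd_sub, max_eq_right h',
      ← corr_image A Prod.swap Prod.swap_injective (fun p q => by simp [wt, add_comm]) x y]
    exact one _ x.swap y.swap

end Vale.Agent.P159
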