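import Vale.Agent.P159.Moments

/-!
# P159: the Lieb-Rivasseau inequality, its interpolation form, and the McBryan-Spencer bound
-/

namespace Vale.Agent.P159

open Finset MeasureTheory Vale.Agent.P163

variable {V : Type} [Fintype V] [DecidableEq V]


theorem dot_pt_sub (x y : V) (θ : V → UnitAddCircle) : dot (pt x - pt y) θ = θ x - θ y := by
  simp [dot, pt, sub_zsmul, sum_add_distrib, Pi.single_apply, ite_smul]
  abel

theorem xyCorr_eq (J : V → V → ℝ) (x y : V) : xyCorr J x y = part J (pt x - pt y) / part J 0 := by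
  rw [part_zero]; simp only [xyCorr, part, chr, dot_pt_sub]

theorem xyCorr_comm (J : V → V → ℝ) (x y : V) : xyCorr J x y = xyCorr J y x := by
  rw [xyCorr_eq, xyCorr_eq, ← part_neg, neg_sub]

theorem xyCorr_self (J : V → V → ℝ) (x : V) : xyCorr J x x = 1 := by
  rw [xyCorr_eq, sub_self, div_self (part_zero_pos J).ne']

/-- An isolated vertex is uncorrelated with every other one. -/
theorem xyCorr_isolated {J : V → V → ℝ} {x u : V} (hxu : x ≠ u) (hu : ∀ a, J u a = 0 ∧ J a u = 0) :
    xyCorr J x u = 0 := by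
  rw [xyCorr_eq, div_eq_zero_iff]
  left
  have hw : ∀ θ, xyWeight J (θ + Pi.single u half) = xyWeight J θ := fun θ => by
    simp only [xyWeight]
    congr 1
    refine sum_congr rfl fun a _ => sum_congr rfl fun b _ => ?_
    by_cases h : a = u
    · simp [h, (hu b).1]
    by_cases h' : b = u
    · simp [h', (hu a).2]
    simp [Pi.single_eq_of_ne h, Pi.single_eq_of_ne h']
  have e := integral_add_right_eq_self (μ := (Measure.pi fun _ : V => (volume : Measure UnitAddCircle))) (fun θ => chr (pt x - pt u) θ * xyWeight J θ)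
    (Pi.single u half)
  have e' : ∀ θ, chr (pt x - pt u) (θ + Pi.single u half) = -chr (pt x - pt u) θ := fun θ => by
    simp only [chr, dot_pt_sub, Pi.add_apply, Pi.single_eq_same, Pi.single_eq_of_ne hxu, add_zero]
    rw [show θ x - (θ u + half) = -((θ u - θ x) + half) by abel, cosd_neg, cosd_add_half, ← cosd_neg,
      neg_sub]
  simp only [e', hw, neg_mul, integral_neg] at e
  rw [part]
  linarith

/-- Mixed moments: powers of an extra interaction against a base weight. -/
noncomputable def mom (J₀ J₁ : V → V → ℝ) (K : ℕ) (n : V → ℤ) : ℝ :=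
  ∫ θ, chr n θ * xyWeight J₀ θ * ham J₁ θ ^ K ∂(Measure.pi fun _ : V => (volume : Measure UnitAddCircle))

theorem mom_zero (J₀ J₁ : V → V → ℝ) (n : V → ℤ) : mom J₀ J₁ 0 n = part J₀ n := by
  simp [mom, part]

theorem mom_succ (J₀ J₁ : V → V → ℝ) (K : ℕ) (n : V → ℤ) : mom J₀ J₁ (K + 1) n =
    ∑ e : V × V, J₁ e.1 e.2 / 2 * (mom J₀ J₁ K (n + dvg e) + mom J₀ J₁ K (n - dvg e)) := by
  have hc : ∀ m, Integrable (fun θ => chr m θ * xyWeight J₀ θ * ham J₁ θ ^ K) (Measure.pi fun _ : V => (volume : Measure UnitAddCircle)) := fun m =>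
    integrable_of_continuous (((continuous_chr m).mul (continuous_xyWeight J₀)).mul ((continuous_ham J₁).pow K))
  have h2 : ∀ e : V × V, J₁ e.1 e.2 / 2 * (mom J₀ J₁ K (n + dvg e) + mom J₀ J₁ K (n - dvg e)) =
      ∫ θ, J₁ e.1 e.2 / 2 * (chr (n + dvg e) θ + chr (n - dvg e) θ) * (xyWeight J₀ θ * ham J₁ θ ^ K) ∂(Measure.pi fun _ : V => (volume : Measure UnitAddCircle)) :=
    fun e => by
      simp only [mom, mul_assoc (J₁ e.1 e.2 / 2), add_mul, ← mul_assoc (chr _ _)]
      rw [integral_const_mul, integral_add (hc _) (hc _)]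
  simp only [h2]
  rw [← integral_finsetSum, mom]
  · refine integral_congr_ae (ae_of_all _ fun θ => ?_)
    simp only [pow_succ', ← sum_mul]
    rw [show chr n θ * xyWeight J₀ θ * (ham J₁ θ * ham J₁ θ ^ K) =
      chr n θ * ham J₁ θ * (xyWeight J₀ θ * ham J₁ θ ^ K) by ring]
    congr 1
    simp only [ham, ← Fintype.sum_prod_type', mul_sum]
    refine sum_congr rfl fun e _ => ?_
    linear_combination J₁ e.1 e.2 * chr_mul_cosd n e θ
  · intro e _
    simp only [mul_assoc (J₁ e.1 e.2 / 2), add_mul, ← mul_assoc (chr _ _)]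
    exact ((hc _).fun_add (hc _)).const_mul _

theorem mom_nonneg {J₀ J₁ : V → V → ℝ} (h₀ : ∀ a b, 0 ≤ J₀ a b) (h₁ : ∀ a b, 0 ≤ J₁ a b) (K : ℕ)
    (n : V → ℤ) : 0 ≤ mom J₀ J₁ K n := by
  induction K generalizing n with
  | zero => rw [mom_zero]; exact part_nonneg h₀ n
  | succ K ih =>
    rw [mom_succ]
    exact sum_nonneg fun e _ => mul_nonneg (div_nonneg (h₁ _ _) zero_le_two) (add_nonneg (ih _) (ih _))

theorem hasSum_mom (J₀ J₁ : V → V → ℝ) (n : V → ℤ) :
    HasSum (fun K : ℕ => mom J₀ J₁ K n / K.factorial) (part (J₀ + J₁) n) := by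
  have e : part (J₀ + J₁) n = ∫ θ, chr n θ * xyWeight J₀ θ * Real.exp (ham J₁ θ) ∂(Measure.pi fun _ : V => (volume : Measure UnitAddCircle)) := by
    simp only [part, xyWeight_eq, mul_assoc, ← Real.exp_add, ham, Pi.add_apply, add_mul, sum_add_distrib]
  rw [e]
  exact hasSum_exp_integral (Measure.pi fun _ : V => (volume : Measure UnitAddCircle)) ((continuous_chr n).mul (continuous_xyWeight J₀)) (continuous_ham J₁)

/-- The coupling between `u` and `v`, averaged over the two orientations. -/
noncomputable def sym (J : V → V → ℝ) (u v : V) : ℝ := (J u v + J v u) / 2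

theorem mom_claim {J₀ J₁ : V → V → ℝ} (h₀ : ∀ a b, 0 ≤ J₀ a b) (h₁ : ∀ a b, 0 ≤ J₁ a b) (K : ℕ)
    (n : V → ℤ) (w : V) :
    part J₀ 0 * mom J₀ J₁ K (n + pt w) ≤ ∑ u, part J₀ (pt w - pt u) *
      (((-n u).toNat : ℝ) * mom J₀ J₁ K (n + pt u) +
        K * ∑ v, sym J₁ u v * mom J₀ J₁ (K - 1) (n + pt v)) := by
  induction K generalizing n with
  | zero =>
    simp only [mom_zero, Nat.cast_zero, zero_mul, add_zero]
    rw [mul_comm]
    exact (gaussian h₀ n w).trans_eq (sum_congr rfl fun u _ => by ring)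
  | succ K ih =>
    have hm := fun m => mom_nonneg h₀ h₁ K m
    have step : ∀ (e : V × V) (m : V → ℤ) (u : V), ((-(m + dvg e) u).toNat : ℝ) *
          mom J₀ J₁ K (m + dvg e + pt u) ≤ ((-m u).toNat : ℝ) * mom J₀ J₁ K (m + dvg e + pt u) +
          if e.2 = u then mom J₀ J₁ K (m + pt e.1) else 0 := by
      intro e m u
      split_ifs with h
      · subst h
        rw [show m + pt e.1 = m + dvg e + pt e.2 by simp only [dvg]; abel, ← add_one_mul]
        refine mul_le_mul_of_nonneg_right ?_ (hm _)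
        exact_mod_cast show (-(m + dvg e) e.2).toNat ≤ (-m e.2).toNat + 1 by
          simp only [Pi.add_apply, dvg_apply]; split_ifs <;> omega
      · rw [add_zero]
        refine mul_le_mul_of_nonneg_right ?_ (hm _)
        exact_mod_cast show (-(m + dvg e) u).toNat ≤ (-m u).toNat by
          simp only [Pi.add_apply, dvg_apply, h, if_false]; split_ifs <;> omega
    have hswap : ∀ e : V × V, dvg e.swap = -dvg e := fun e => by simp [dvg]
    rw [mom_succ, mul_sum]
    have h1 : ∀ e : V × V, part J₀ 0 * (J₁ e.1 e.2 / 2 *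
        (mom J₀ J₁ K (n + pt w + dvg e) + mom J₀ J₁ K (n + pt w - dvg e))) ≤
        ∑ u, part J₀ (pt w - pt u) * (((-n u).toNat : ℝ) * (J₁ e.1 e.2 / 2 *
            (mom J₀ J₁ K (n + pt u + dvg e) + mom J₀ J₁ K (n + pt u - dvg e))) +
          J₁ e.1 e.2 / 2 * ((if e.2 = u then mom J₀ J₁ K (n + pt e.1) else 0) +
            if e.1 = u then mom J₀ J₁ K (n + pt e.2) else 0) +
          (K : ℝ) * ∑ v, sym J₁ u v * (J₁ e.1 e.2 / 2 * (mom J₀ J₁ (K - 1) (n + pt v + dvg e) +
            mom J₀ J₁ (K - 1) (n + pt v - dvg e)))) := by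
      intro e
      have hp : ∀ m : V → ℤ, n + m + dvg e = n + dvg e + m := fun m => by abel
      have hq : ∀ m : V → ℤ, n + m - dvg e = n + dvg e.swap + m := fun m => by rw [hswap]; abel
      simp only [hp, hq]
      have hj : 0 ≤ J₁ e.1 e.2 / 2 := div_nonneg (h₁ _ _) zero_le_two
      rw [show part J₀ 0 * (J₁ e.1 e.2 / 2 * (mom J₀ J₁ K (n + dvg e + pt w) +
        mom J₀ J₁ K (n + dvg e.swap + pt w))) = J₁ e.1 e.2 / 2 * (part J₀ 0 * mom J₀ J₁ K (n + dvg e + pt w) +
        part J₀ 0 * mom J₀ J₁ K (n + dvg e.swap + pt w)) by ring]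
      refine (mul_le_mul_of_nonneg_left (add_le_add (ih (n + dvg e)) (ih (n + dvg e.swap))) hj).trans ?_
      rw [← sum_add_distrib, mul_sum]
      refine sum_le_sum fun u _ => ?_
      rw [← mul_add, mul_left_comm]
      refine mul_le_mul_of_nonneg_left ?_ (part_nonneg h₀ _)
      refine (mul_le_mul_of_nonneg_left
        (add_le_add (add_le_add_left (step e n u) _) (add_le_add_left (step e.swap n u) _)) hj).trans_eq ?_
      have hs : ∑ v, sym J₁ u v * (J₁ e.1 e.2 / 2 * (mom J₀ J₁ (K - 1) (n + dvg e + pt v) +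
          mom J₀ J₁ (K - 1) (n + dvg e.swap + pt v))) = J₁ e.1 e.2 / 2 *
          (∑ v, sym J₁ u v * mom J₀ J₁ (K - 1) (n + dvg e + pt v) +
           ∑ v, sym J₁ u v * mom J₀ J₁ (K - 1) (n + dvg e.swap + pt v)) := by
        rw [← sum_add_distrib, mul_sum]; exact sum_congr rfl fun v _ => by ring
      rw [hs]
      simp only [Prod.fst_swap, Prod.snd_swap]
      ring
    refine (sum_le_sum fun e _ => h1 e).trans_eq ?_
    rw [sum_comm]
    refine sum_congr rfl fun u _ => ?_
    rw [← mul_sum, sum_add_distrib, sum_add_distrib]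
    congr 1
    have hK : (K : ℝ) * ∑ e : V × V, ∑ v, sym J₁ u v * (J₁ e.1 e.2 / 2 *
        (mom J₀ J₁ (K - 1) (n + pt v + dvg e) + mom J₀ J₁ (K - 1) (n + pt v - dvg e))) =
        (K : ℝ) * ∑ v, sym J₁ u v * mom J₀ J₁ K (n + pt v) := by
      rcases Nat.eq_zero_or_pos K with rfl | hK
      · simp
      rw [sum_comm]
      congr 1
      refine sum_congr rfl fun v _ => ?_
      rw [← mul_sum, ← mom_succ, Nat.sub_add_cancel hK]
    have hE : ∑ e : V × V, J₁ e.1 e.2 / 2 * ((if e.2 = u then mom J₀ J₁ K (n + pt e.1) else 0) +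
        if e.1 = u then mom J₀ J₁ K (n + pt e.2) else 0) = ∑ v, sym J₁ u v * mom J₀ J₁ K (n + pt v) := by
      simp only [mul_add, sum_add_distrib, mul_ite, mul_zero]
      rw [Fintype.sum_prod_type, Fintype.sum_prod_type_right]
      simp only [sum_ite_eq', mem_univ, if_true, ← sum_add_distrib]
      exact sum_congr rfl fun v _ => by simp only [sym]; ring
    rw [← mul_sum, ← mom_succ, ← mul_sum, hK, hE, Nat.add_sub_cancel]
    push_cast
    ring

/-- The interpolation form of the Lieb-Rivasseau inequality. -/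
theorem resolvent {J₀ J₁ : V → V → ℝ} (h₀ : ∀ a b, 0 ≤ J₀ a b) (h₁ : ∀ a b, 0 ≤ J₁ a b) (x y : V) :
    xyCorr (J₀ + J₁) x y ≤ xyCorr J₀ x y +
      ∑ u, xyCorr J₀ x u * ∑ v, sym J₁ u v * xyCorr (J₀ + J₁) v y := by
  have hsum : HasSum (fun K : ℕ => (∑ u, part J₀ (pt x - pt u) *
      (((- (-pt y : V → ℤ) u).toNat : ℝ) * mom J₀ J₁ K (-pt y + pt u) +
        K * ∑ v, sym J₁ u v * mom J₀ J₁ (K - 1) (-pt y + pt v))) / K.factorial)
      (∑ u, part J₀ (pt x - pt u) * (((- (-pt y : V → ℤ) u).toNat : ℝ) * part (J₀ + J₁) (-pt y + pt u) +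
        ∑ v, sym J₁ u v * part (J₀ + J₁) (-pt y + pt v))) := by
    have hshift : ∀ v, HasSum (fun K : ℕ => (K : ℝ) * mom J₀ J₁ (K - 1) (-pt y + pt v) / K.factorial)
        (part (J₀ + J₁) (-pt y + pt v)) := fun v => by
      have := (hasSum_nat_add_iff (f := fun K : ℕ =>
        (K : ℝ) * mom J₀ J₁ (K - 1) (-pt y + pt v) / K.factorial) 1).1
        ((hasSum_mom J₀ J₁ (-pt y + pt v)).congr_fun fun K => by
          simp only [Nat.add_sub_cancel, Nat.factorial_succ]
          push_cast
          rw [mul_div_mul_left _ _ (by positivity)])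
      simpa using this
    refine (hasSum_sum fun u _ => (((hasSum_mom J₀ J₁ _).mul_left _).add
      (hasSum_sum fun v _ => (hshift v).mul_left _)).mul_left _).congr_fun fun K => ?_
    rw [sum_div]
    refine sum_congr rfl fun u _ => ?_
    rw [mul_div_assoc, add_div, mul_sum (a := (K : ℝ)), sum_div]
    congr 2
    · ring
    · exact sum_congr rfl fun v _ => by ring
  have h := hasSum_le (fun K => div_le_div_of_nonneg_right (mom_claim h₀ h₁ K (-pt y) x)
    (by positivity : (0:ℝ) ≤ K.factorial))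
    (((hasSum_mom J₀ J₁ (-pt y + pt x)).mul_left (part J₀ 0)).congr_fun fun K => by ring) hsum
  have e : ∀ u, ((-(-pt y : V → ℤ) u).toNat : ℝ) = if u = y then 1 else 0 := fun u => by
    simp only [pt, Pi.neg_apply, neg_neg, Pi.single_apply]
    split_ifs <;> simp
  simp only [e, ite_mul, one_mul, zero_mul, mul_add, sum_add_distrib, mul_ite, mul_zero, sum_ite_eq',
    mem_univ, if_true, neg_add_eq_sub, sub_self] at h
  simp only [xyCorr_eq]
  have hZ₀ := part_zero_pos J₀
  have hZ := part_zero_pos (J₀ + J₁)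
  have e2 : ∑ u, part J₀ (pt x - pt u) / part J₀ 0 *
      ∑ v, sym J₁ u v * (part (J₀ + J₁) (pt v - pt y) / part (J₀ + J₁) 0) =
      (∑ u, part J₀ (pt x - pt u) * ∑ v, sym J₁ u v * part (J₀ + J₁) (pt v - pt y)) /
        (part J₀ 0 * part (J₀ + J₁) 0) := by
    rw [sum_div]
    refine sum_congr rfl fun u _ => ?_
    simp only [mul_sum, sum_div]
    exact sum_congr rfl fun v _ => by ring
  rw [e2, div_le_iff₀ hZ, add_mul]
  refine le_of_mul_le_mul_left (h.trans_eq ?_) hZ₀
  field_simp

/-- The complex character. -/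
noncomputable def chc (n : V → ℤ) (θ : V → UnitAddCircle) : ℂ := (AddCircle.toCircle (dot n θ) : ℂ)

/-- The tilted interaction. -/
noncomputable def tilt (J : V → V → ℝ) (a : V → ℝ) (θ : V → UnitAddCircle) : ℂ :=
  ∑ e : V × V, ((J e.1 e.2 : ℝ) : ℂ) * ⟨Real.cosh (a e.1 - a e.2) * cosd (θ e.1 - θ e.2),
    -Real.sinh (a e.1 - a e.2) * sind (θ e.1 - θ e.2)⟩

/-- The McBryan-Spencer bound. -/
theorem mcBryan {J : V → V → ℝ} (hJ : ∀ a b, 0 ≤ J a b) (a : V → ℝ) (x y : V) :
    xyCorr J x y ≤
      Real.exp (-(a x - a y) + ∑ u, ∑ v, J u v * (Real.cosh (a u - a v) - 1)) := by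
  set g : (V → ℤ) → ℝ := fun n => Real.exp (∑ v, a v * n v) with hg
  have hgd : ∀ (n : V → ℤ) (e : V × V), g (n + dvg e) = g n * Real.exp (a e.1 - a e.2) ∧
      g (n - dvg e) = g n / Real.exp (a e.1 - a e.2) := fun n e => by
    simp [hg, ← Real.exp_add, ← Real.exp_sub, mul_add, mul_sub, sum_add_distrib, sum_sub_distrib,
      dvg_apply, mul_sub]
  have hchc : ∀ n : V → ℤ, Continuous (chc n) := fun n => continuous_subtype_val.comp
    (AddCircle.continuous_toCircle.comp
      (continuous_finsetSum _ fun v _ => (continuous_apply v).zsmul (n v)))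
  have htilt : Continuous (tilt J a) := by
    refine continuous_finsetSum _ fun e _ => continuous_const.mul ?_
    simp only [Complex.mk_eq_add_mul_I]
    have h1 : Continuous fun θ : V → UnitAddCircle => θ e.1 - θ e.2 := by fun_prop
    exact (Complex.continuous_ofReal.comp (continuous_const.mul (continuous_cosd.comp h1))).add
      ((Complex.continuous_ofReal.comp (continuous_const.mul (continuous_sind.comp h1))).mul continuous_const)
  have key : ∀ (K : ℕ) (n : V → ℤ),
      ∫ θ, (chc n θ * tilt J a θ ^ K).re ∂(Measure.pi fun _ : V => (volume : Measure UnitAddCircle)) = g n * mom 0 J K n := by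
    intro K
    induction K with
    | zero =>
      intro n
      simp only [pow_zero, mul_one, mom_zero, part, xyWeight, Pi.zero_apply, zero_mul, sum_const_zero,
        Real.exp_zero]
      show ∫ θ, chr n θ ∂(Measure.pi fun _ : V => (volume : Measure UnitAddCircle)) = g n * ∫ θ, chr n θ ∂(Measure.pi fun _ : V => (volume : Measure UnitAddCircle))
      rw [integral_chr]
      split_ifs with h
      · simp [h, hg]
      · simp
    | succ K ih =>
      intro n
      have hi : ∀ m, Integrable (fun θ => (chc m θ * tilt J a θ ^ K).re) (Measure.pi fun _ : V => (volume : Measure UnitAddCircle)) := fun m =>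
        integrable_of_continuous (Complex.continuous_re.comp ((hchc m).mul (htilt.pow K)))
      have e1 : ∀ θ, (chc n θ * tilt J a θ ^ (K + 1)).re = ∑ e : V × V,
          (J e.1 e.2 / 2 / Real.exp (a e.1 - a e.2) * (chc (n + dvg e) θ * tilt J a θ ^ K).re +
           J e.1 e.2 / 2 * Real.exp (a e.1 - a e.2) * (chc (n - dvg e) θ * tilt J a θ ^ K).re) := by
        intro θ
        rw [pow_succ', ← mul_assoc, tilt, mul_sum, sum_mul, Complex.re_sum]
        refine sum_congr rfl fun e _ => ?_
        simp only [chc, (dot_dvg n e θ).1, (dot_dvg n e θ).2, sub_eq_add_neg (dot n θ),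
          AddCircle.toCircle_add, AddCircle.toCircle_neg, Circle.coe_mul, Circle.coe_inv_eq_conj,
          cosd, sind, Complex.mul_re, Complex.mul_im, Complex.conj_re, Complex.conj_im, Real.cosh_eq,
          Real.sinh_eq, Complex.ofReal_re, Complex.ofReal_im, Real.exp_neg]
        field_simp
        ring
      simp only [e1]
      rw [integral_finsetSum _ fun e _ => ((hi _).const_mul _).fun_add ((hi _).const_mul _), mom_succ,
        mul_sum]
      refine sum_congr rfl fun e _ => ?_
      rw [integral_add ((hi _).const_mul _) ((hi _).const_mul _), integral_const_mul, integral_const_mul,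
        ih, ih, (hgd n e).1, (hgd n e).2]
      field_simp
  have hs : HasSum (fun K : ℕ => g (pt x - pt y) * mom 0 J K (pt x - pt y) / K.factorial)
      (∫ θ, (chc (pt x - pt y) θ * Complex.exp (tilt J a θ)).re ∂(Measure.pi fun _ : V => (volume : Measure UnitAddCircle))) := by
    simp only [← key, ← integral_div]
    obtain ⟨C, hC⟩ := isCompact_univ.exists_bound_of_continuousOn htilt.continuousOn
    refine hasSum_integral_of_dominated_convergence (fun K _ => C ^ K / K.factorial)
      (fun K => ((Complex.continuous_re.comp ((hchc _).mul (htilt.pow K))).div_const _).aestronglyMeasurable)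
      (fun K => ae_of_all _ fun θ => ?_) (ae_of_all _ fun θ => Real.summable_pow_div_factorial C)
      (integrable_const _) (ae_of_all _ fun θ => ?_)
    · rw [norm_div, RCLike.norm_natCast]
      refine div_le_div_of_nonneg_right ?_ (by positivity)
      refine (Complex.abs_re_le_norm _).trans ?_
      rw [norm_mul, norm_pow, chc, Circle.norm_coe, one_mul]
      exact pow_le_pow_left₀ (norm_nonneg _) (hC θ trivial) K
    · have h := NormedSpace.expSeries_div_hasSum_exp (𝔸 := ℂ) (tilt J a θ)
      rw [← Complex.exp_eq_exp_ℂ] at h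
      have h' := Complex.hasSum_re (h.mul_left (chc (pt x - pt y) θ))
      refine h'.congr_fun fun K => ?_
      simp [← Complex.ofReal_natCast, Complex.div_ofReal_re, ← mul_div_assoc]
  have heq : g (pt x - pt y) * part J (pt x - pt y) =
      ∫ θ, (chc (pt x - pt y) θ * Complex.exp (tilt J a θ)).re ∂(Measure.pi fun _ : V => (volume : Measure UnitAddCircle)) := by
    have h := (hasSum_mom 0 J (pt x - pt y)).mul_left (g (pt x - pt y))
    rw [zero_add] at h
    exact (h.congr_fun fun K => by ring).unique hs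
  set S := ∑ u, ∑ v, J u v * (Real.cosh (a u - a v) - 1) with hS
  have hb : g (pt x - pt y) * part J (pt x - pt y) ≤ Real.exp S * part J 0 := by
    rw [heq, part_zero, ← integral_const_mul]
    refine integral_mono (integrable_of_continuous (Complex.continuous_re.comp
      ((hchc _).mul (Complex.continuous_exp.comp htilt))))
      ((integrable_of_continuous (continuous_xyWeight J)).const_mul _) fun θ => ?_
    refine (Complex.re_le_norm _).trans ?_
    rw [norm_mul, chc, Circle.norm_coe, one_mul, Complex.norm_exp, xyWeight, ← Real.exp_add]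
    refine Real.exp_le_exp.2 ?_
    simp only [tilt, Complex.re_sum, Complex.re_ofReal_mul, Fintype.sum_prod_type, hS, ← sum_add_distrib]
    refine sum_le_sum fun u _ => sum_le_sum fun v _ => ?_
    have h1 : cosd (θ u - θ v) ≤ 1 := (Complex.re_le_norm _).trans_eq (Circle.norm_coe _)
    nlinarith [mul_nonneg (hJ u v) (sub_nonneg.2 (Real.one_le_cosh (a u - a v))), hJ u v,
      mul_nonneg (mul_nonneg (hJ u v) (sub_nonneg.2 (Real.one_le_cosh (a u - a v)))) (sub_nonneg.2 h1)]
  have hgx : g (pt x - pt y) = Real.exp (a x - a y) := by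
    simp [hg, pt, mul_sub, sum_sub_distrib, Pi.single_apply]
  rw [xyCorr_eq, div_le_iff₀ (part_zero_pos J), Real.exp_add, Real.exp_neg]
  rw [hgx] at hb
  rw [mul_assoc, ← div_eq_inv_mul, le_div_iff₀ (Real.exp_pos _), mul_comm]
  exact hb

end Vale.Agent.P159
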