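import Vale.Agent.P159.Count
import Vale.Agent.P163.Ginibre

/-!
# P159: the Gaussian inequality of the plane rotor and its two consequences

Products of two Fourier coefficients of the Boltzmann weight expand into squares of orientation counts,
so the switching inequality gives the Gaussian inequality, and from it the Lieb-Rivasseau inequality.
-/

namespace Vale.Agent.P159

open Finset MeasureTheory Vale.Agent.P163

variable {V : Type} [Fintype V]

instance : IsProbabilityMeasure (volume : Measure UnitAddCircle) :=
  ⟨by simp [AddCircle.measure_univ]⟩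


/-- The angle paired with a charge. -/
noncomputable def dot (n : V → ℤ) (θ : V → UnitAddCircle) : UnitAddCircle := ∑ v, n v • θ v

/-- The cosine character of a charge. -/
noncomputable def chr (n : V → ℤ) (θ : V → UnitAddCircle) : ℝ := cosd (dot n θ)

/-- The interaction. -/
noncomputable def ham (J : V → V → ℝ) (θ : V → UnitAddCircle) : ℝ :=
  ∑ a, ∑ b, J a b * cosd (θ a - θ b)

theorem continuous_chr (n : V → ℤ) : Continuous (chr n) :=
  continuous_cosd.comp (continuous_finsetSum _ fun v _ => (continuous_apply v).zsmul (n v))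

theorem continuous_ham (J : V → V → ℝ) : Continuous (ham J) :=
  continuous_finsetSum _ fun a _ => continuous_finsetSum _ fun b _ =>
    continuous_const.mul (continuous_cosd.comp ((continuous_apply a).sub (continuous_apply b)))

theorem xyWeight_eq (J : V → V → ℝ) (θ : V → UnitAddCircle) : xyWeight J θ = Real.exp (ham J θ) := rfl

theorem chr_zero (θ : V → UnitAddCircle) : chr 0 θ = 1 := by simp [chr, dot, cosd_zero]

theorem chr_neg (n : V → ℤ) (θ : V → UnitAddCircle) : chr (-n) θ = chr n θ := by
  simp [chr, dot, sum_neg_distrib, cosd_neg]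

theorem dot_add_single (n : V → ℤ) (v : V) (t : UnitAddCircle) [DecidableEq V] (θ : V → UnitAddCircle) :
    dot n (θ + Pi.single v t) = dot n θ + n v • t := by
  simp only [dot, Pi.add_apply, zsmul_add, sum_add_distrib]
  congr 1
  rw [sum_eq_single v (fun w _ hw => by simp [Pi.single_eq_of_ne hw]) (by simp)]
  simp

/-- The Fourier coefficient of the Boltzmann weight. -/
noncomputable def part (J : V → V → ℝ) (n : V → ℤ) : ℝ := ∫ θ, chr n θ * xyWeight J θ ∂(Measure.pi fun _ : V => (volume : Measure UnitAddCircle))

theorem part_zero (J : V → V → ℝ) : part J 0 = ∫ θ, xyWeight J θ ∂(Measure.pi fun _ : V => (volume : Measure UnitAddCircle)) := by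
  simp [part, chr_zero]

theorem part_zero_pos (J : V → V → ℝ) : 0 < part J 0 := by rw [part_zero]; exact xy_pos J

theorem part_neg (J : V → V → ℝ) (n : V → ℤ) : part J (-n) = part J n := by simp [part, chr_neg]

variable [DecidableEq V]

theorem dot_dvg (n : V → ℤ) (e : V × V) (θ : V → UnitAddCircle) :
    dot (n + dvg e) θ = dot n θ + (θ e.1 - θ e.2) ∧ dot (n - dvg e) θ = dot n θ - (θ e.1 - θ e.2) := by
  simp [dot, dvg, pt, add_zsmul, sub_zsmul, sum_add_distrib, Pi.single_apply, ite_smul]
  constructor <;> abel

theorem chr_mul_cosd (n : V → ℤ) (e : V × V) (θ : V → UnitAddCircle) :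
    chr n θ * cosd (θ e.1 - θ e.2) = (chr (n + dvg e) θ + chr (n - dvg e) θ) / 2 := by
  simp only [chr, (dot_dvg n e θ).1, (dot_dvg n e θ).2]
  rw [sub_eq_add_neg (dot n θ), cosd_add, cosd_add, cosd_neg, sind_neg]
  ring

theorem integral_chr (n : V → ℤ) : ∫ θ, chr n θ ∂(Measure.pi fun _ : V => (volume : Measure UnitAddCircle)) = if n = 0 then 1 else 0 := by
  split_ifs with h
  · subst h; simp [chr_zero]
  · obtain ⟨v, hv⟩ := Function.ne_iff.1 h
    set t : UnitAddCircle := ((1 / (2 * (n v : ℝ)) : ℝ) : UnitAddCircle)
    have ht : n v • t = half := by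
      simp only [t, half, ← AddCircle.coe_zsmul]
      congr 1
      have : (n v : ℝ) ≠ 0 := by exact_mod_cast hv
      rw [zsmul_eq_mul]; field_simp
    have e := integral_add_right_eq_self (μ := (Measure.pi fun _ : V => (volume : Measure UnitAddCircle))) (chr n) (Pi.single v t)
    have e' : ∀ θ, chr n (θ + Pi.single v t) = -chr n θ := fun θ => by
      simp only [chr, dot_add_single, ht, cosd_add_half]
    simp only [e', integral_neg] at e
    linarith

/-- Sums over edge sequences of a given length, weighted by half the couplings. -/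
noncomputable def seqSum (J : V → V → ℝ) : ℕ → (List (V × V) → ℝ) → ℝ
  | 0, f => f []
  | K + 1, f => ∑ e : V × V, J e.1 e.2 / 2 * seqSum J K fun l => f (e :: l)

theorem seqSum_add (J : V → V → ℝ) (K : ℕ) (f g : List (V × V) → ℝ) :
    seqSum J K (fun l => f l + g l) = seqSum J K f + seqSum J K g := by
  induction K generalizing f g with
  | zero => rfl
  | succ K ih => simp only [seqSum, ih, mul_add, sum_add_distrib]

theorem seqSum_zero (J : V → V → ℝ) (K : ℕ) : seqSum J K (fun _ => 0) = 0 := by
  induction K with
  | zero => rfl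
  | succ K ih => simp only [seqSum, ih, mul_zero, sum_const_zero]

theorem seqSum_mul (J : V → V → ℝ) (K : ℕ) (c : ℝ) (f : List (V × V) → ℝ) :
    seqSum J K (fun l => c * f l) = c * seqSum J K f := by
  induction K generalizing f with
  | zero => rfl
  | succ K ih => simp only [seqSum, ih, mul_sum]; exact sum_congr rfl fun e _ => by ring

theorem seqSum_sum (J : V → V → ℝ) (K : ℕ) {ι : Type} (s : Finset ι) (f : ι → List (V × V) → ℝ) :
    seqSum J K (fun l => ∑ i ∈ s, f i l) = ∑ i ∈ s, seqSum J K (f i) := by
  classical
  induction s using Finset.induction with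
  | empty => simpa using seqSum_zero J K
  | insert a s ha ih => simp only [sum_insert ha, seqSum_add, ih]

theorem seqSum_mono {J : V → V → ℝ} (hJ : ∀ a b, 0 ≤ J a b) (K : ℕ) {f g : List (V × V) → ℝ}
    (h : ∀ l, f l ≤ g l) : seqSum J K f ≤ seqSum J K g := by
  induction K generalizing f g with
  | zero => exact h []
  | succ K ih =>
    exact sum_le_sum fun e _ => mul_le_mul_of_nonneg_left (ih fun l => h _) (div_nonneg (hJ _ _) zero_le_two)

/-- Terms of the expansion of a product of two Fourier coefficients. -/
noncomputable def dbl (J : V → V → ℝ) (K : ℕ) (A B : V → ℤ) : ℝ :=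
  ∫ p, chr A p.1 * chr B p.2 * (ham J p.1 + ham J p.2) ^ K ∂((Measure.pi fun _ : V => (volume : Measure UnitAddCircle))).prod (Measure.pi fun _ : V => (volume : Measure UnitAddCircle))

theorem dbl_zero (J : V → V → ℝ) (A B : V → ℤ) :
    dbl J 0 A B = (if A = 0 then 1 else 0) * if B = 0 then 1 else 0 := by
  simp only [dbl, pow_zero, mul_one]
  rw [integral_prod_mul (μ := (Measure.pi fun _ : V => (volume : Measure UnitAddCircle))) (ν := (Measure.pi fun _ : V => (volume : Measure UnitAddCircle))) (chr A) (chr B), integral_chr, integral_chr]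

theorem dbl_succ (J : V → V → ℝ) (K : ℕ) (A B : V → ℤ) :
    dbl J (K + 1) A B = ∑ e : V × V, J e.1 e.2 / 2 *
      (dbl J K (A + dvg e) B + dbl J K (A - dvg e) B + dbl J K A (B + dvg e) + dbl J K A (B - dvg e)) := by
  have hc : ∀ A B : V → ℤ, Integrable (fun p => chr A p.1 * chr B p.2 * (ham J p.1 + ham J p.2) ^ K)
      (((Measure.pi fun _ : V => (volume : Measure UnitAddCircle))).prod (Measure.pi fun _ : V => (volume : Measure UnitAddCircle))) := fun A B => integrable_of_continuous
    ((((continuous_chr A).comp continuous_fst).mul ((continuous_chr B).comp continuous_snd)).mul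
      ((((continuous_ham J).comp continuous_fst).add ((continuous_ham J).comp continuous_snd)).pow K))
  have h4 : ∀ e : V × V, J e.1 e.2 / 2 *
      (dbl J K (A + dvg e) B + dbl J K (A - dvg e) B + dbl J K A (B + dvg e) + dbl J K A (B - dvg e)) =
      ∫ p, J e.1 e.2 / 2 * (((chr (A + dvg e) p.1 * chr B p.2 + chr (A - dvg e) p.1 * chr B p.2) +
        chr A p.1 * chr (B + dvg e) p.2) + chr A p.1 * chr (B - dvg e) p.2) *
        (ham J p.1 + ham J p.2) ^ K ∂((Measure.pi fun _ : V => (volume : Measure UnitAddCircle))).prod (Measure.pi fun _ : V => (volume : Measure UnitAddCircle)) := fun e => by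
    simp only [dbl, mul_assoc (J e.1 e.2 / 2), add_mul]
    rw [integral_const_mul, integral_add (((hc _ _).fun_add (hc _ _)).fun_add (hc _ _)) (hc _ _),
      integral_add ((hc _ _).fun_add (hc _ _)) (hc _ _), integral_add (hc _ _) (hc _ _)]
  simp only [h4]
  rw [← integral_finsetSum, dbl]
  · refine integral_congr_ae (ae_of_all _ fun p => ?_)
    simp only [pow_succ', ← mul_assoc, ← sum_mul]
    congr 1
    simp only [ham, ← Fintype.sum_prod_type', ← sum_add_distrib, mul_sum]
    refine sum_congr rfl fun e _ => ?_
    have h1 := chr_mul_cosd A e p.1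
    have h2 := chr_mul_cosd B e p.2
    linear_combination (J e.1 e.2 * chr B p.2) * h1 + (J e.1 e.2 * chr A p.1) * h2
  · intro e _
    simp only [mul_assoc (J e.1 e.2 / 2), add_mul]
    exact (((hc _ _).fun_add (hc _ _)).fun_add (hc _ _) |>.fun_add (hc _ _)).const_mul _

theorem dbl_eq (J : V → V → ℝ) (K : ℕ) (A B : V → ℤ) :
    dbl J K A B = seqSum J K fun l => (orient l (A + B) : ℝ) * orient l (A - B) := by
  induction K generalizing A B with
  | zero =>
    rw [dbl_zero]
    simp only [seqSum, orient]
    by_cases hA : A = 0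
    · subst hA
      by_cases hB : B = 0
      · subst hB; simp
      · simp [hB]
    · by_cases h : A + B = 0
      · have h2 : A - B ≠ 0 := fun h' => hA (funext fun v => by
          have e1 := congrFun h v; have e2 := congrFun h' v
          simp only [Pi.add_apply, Pi.sub_apply, Pi.zero_apply] at *; omega)
        simp [hA, h2]
      · simp [hA, h]
  | succ K ih =>
    rw [dbl_succ]
    refine sum_congr rfl fun e _ => ?_
    simp only [ih, ← seqSum_add, orient]
    congr 2
    funext l
    rw [show A + dvg e + B = A + B + dvg e by abel, show A + dvg e - B = A - B + dvg e by abel,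
      show A - dvg e + B = A + B - dvg e by abel, show A - dvg e - B = A - B - dvg e by abel,
      show A + (B + dvg e) = A + B + dvg e by abel, show A - (B + dvg e) = A - B - dvg e by abel,
      show A + (B - dvg e) = A + B - dvg e by abel, show A - (B - dvg e) = A - B + dvg e by abel]
    push_cast
    ring

/-- The exponential series under the integral. -/
theorem hasSum_exp_integral {X : Type} [TopologicalSpace X] [CompactSpace X] [MeasurableSpace X]
    [OpensMeasurableSpace X] (μ : Measure X) [IsFiniteMeasure μ] {g H : X → ℝ} (hg : Continuous g)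
    (hH : Continuous H) :
    HasSum (fun K : ℕ => (∫ x, g x * H x ^ K ∂μ) / K.factorial) (∫ x, g x * Real.exp (H x) ∂μ) := by
  obtain ⟨Cg, hCg⟩ := isCompact_univ.exists_bound_of_continuousOn hg.continuousOn
  obtain ⟨C, hC⟩ := isCompact_univ.exists_bound_of_continuousOn hH.continuousOn
  simp only [← integral_div]
  refine hasSum_integral_of_dominated_convergence (fun K _ => Cg * (C ^ K / K.factorial))
    (fun K => ((hg.mul (hH.pow K)).div_const _).aestronglyMeasurable) (fun K => ae_of_all _ fun x => ?_)
    (ae_of_all _ fun x => (Real.summable_pow_div_factorial C).mul_left Cg) (integrable_const _)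
    (ae_of_all _ fun x => ?_)
  · rw [norm_div, norm_mul, norm_pow, RCLike.norm_natCast, mul_div_assoc]
    have h0 : 0 ≤ ‖g x‖ := norm_nonneg _
    exact mul_le_mul (hCg x trivial) (div_le_div_of_nonneg_right
      (pow_le_pow_left₀ (norm_nonneg _) (hC x trivial) K) (by positivity)) (by positivity)
      (h0.trans (hCg x trivial))
  · have h := NormedSpace.expSeries_div_hasSum_exp (𝔸 := ℝ) (H x)
    rw [← Real.exp_eq_exp_ℝ] at h
    simpa [mul_div_assoc] using h.mul_left (g x)

theorem hasSum_dbl (J : V → V → ℝ) (A B : V → ℤ) :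
    HasSum (fun K : ℕ => dbl J K A B / K.factorial) (part J A * part J B) := by
  have h := hasSum_exp_integral (((Measure.pi fun _ : V => (volume : Measure UnitAddCircle))).prod (Measure.pi fun _ : V => (volume : Measure UnitAddCircle)))
    (((continuous_chr A).comp continuous_fst).mul ((continuous_chr B).comp continuous_snd))
    (((continuous_ham J).comp continuous_fst).add ((continuous_ham J).comp continuous_snd))
  have e : ∫ p, chr A p.1 * chr B p.2 * Real.exp (ham J p.1 + ham J p.2) ∂((Measure.pi fun _ : V => (volume : Measure UnitAddCircle))).prod (Measure.pi fun _ : V => (volume : Measure UnitAddCircle)) =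
      part J A * part J B := by
    rw [part, part, ← integral_prod_mul (μ := (Measure.pi fun _ : V => (volume : Measure UnitAddCircle))) (ν := (Measure.pi fun _ : V => (volume : Measure UnitAddCircle)))]
    simp only [Real.exp_add, xyWeight_eq]
    exact integral_congr_ae (ae_of_all _ fun p => by ring)
  simpa [dbl, e] using h

theorem part_nonneg {J : V → V → ℝ} (hJ : ∀ a b, 0 ≤ J a b) (n : V → ℤ) : 0 ≤ part J n := by
  refine nonneg_of_mul_nonneg_left ?_ (part_zero_pos J)
  refine (hasSum_dbl J n 0).nonneg fun K => div_nonneg ?_ (by positivity)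
  rw [dbl_eq]
  refine (seqSum_zero J K).symm.le.trans (seqSum_mono hJ K fun l => ?_)
  exact mul_nonneg (by exact_mod_cast orient_nonneg _ _) (by exact_mod_cast orient_nonneg _ _)

/-- The Gaussian inequality. -/
theorem gaussian {J : V → V → ℝ} (hJ : ∀ a b, 0 ≤ J a b) (n : V → ℤ) (w : V) :
    part J (n + pt w) * part J 0 ≤
      ∑ u, ((-n u).toNat : ℝ) * (part J (pt w - pt u) * part J (n + pt u)) := by
  refine hasSum_le (fun K => ?_) (hasSum_dbl J _ _)
    (hasSum_sum fun u _ => (hasSum_dbl J _ _).mul_left _)
  simp only [← mul_div_assoc, ← sum_div]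
  refine div_le_div_of_nonneg_right ?_ (by positivity)
  simp only [dbl_eq, ← seqSum_mul, ← seqSum_sum]
  refine seqSum_mono hJ K fun l => ?_
  have h := orient_switch _ l rfl (fun v => (n v).toNat + if v = w then 1 else 0) (fun v => (-n v).toNat)
    w (by simp)
  have e : (fun v => (((n v).toNat + if v = w then 1 else 0 : ℕ) : ℤ) - ((-n v).toNat : ℕ)) = n + pt w := by
    funext v
    simp only [Pi.add_apply, pt, Pi.single_apply]
    split_ifs <;> omega
  rw [e] at h
  rw [add_zero, sub_zero]
  refine (mul_le_mul_of_nonneg_left (Int.cast_le.2 h) (by exact_mod_cast orient_nonneg l _)).trans_eq ?_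
  push_cast
  rw [mul_sum]
  refine sum_congr rfl fun u _ => ?_
  rw [show pt w - pt u + (n + pt u) = n + pt w by abel,
    show pt w - pt u - (n + pt u) = -(n + pt w - 2 • pt w + 2 • pt u) by simp only [two_nsmul]; abel,
    orient_neg]
  ring

end Vale.Agent.P159
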