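import Vale.Agent.P159.Lieb

/-!
# P159: relabelling of vertices and reflection positivity
-/

namespace Vale.Agent.P159

open Finset MeasureTheory Vale.Agent.P163

variable {U V : Type} [Fintype U] [Fintype V] [DecidableEq U] [DecidableEq V]


/-- A charge pushed forward along a map. -/
def push (f : U → V) (n : U → ℤ) : V → ℤ := fun v => ∑ u, if f u = v then n u else 0

theorem push_apply {f : U → V} (hf : Function.Injective f) (n : U → ℤ) (u : U) : push f n (f u) = n u := by
  simp [push, hf.eq_iff]

theorem push_add (f : U → V) (n m : U → ℤ) : push f (n + m) = push f n + push f m := by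
  funext v
  simp only [push, Pi.add_apply, ← sum_add_distrib]
  exact sum_congr rfl fun u _ => by split_ifs <;> simp

theorem push_sub (f : U → V) (n m : U → ℤ) : push f (n - m) = push f n - push f m := by
  rw [eq_sub_iff_add_eq, ← push_add, sub_add_cancel]

theorem push_pt (f : U → V) (a : U) : push f (pt a) = pt (f a) := by
  funext v
  simp only [push, pt, Pi.single_apply]
  rw [sum_eq_single a (fun b _ hb => by simp [hb]) (by simp)]
  simp [eq_comm]

theorem part_map {f : U → V} (hf : Function.Injective f) {J : U → U → ℝ} {J' : V → V → ℝ}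
    (h : ∀ a b, J' (f a) (f b) = J a b) (h0 : ∀ a b, J' a b ≠ 0 → a ∈ Set.range f ∧ b ∈ Set.range f)
    (n : U → ℤ) : part J' (push f n) = part J n := by
  have hd : ∀ (n : U → ℤ) (e : U × U), push f (n + dvg e) = push f n + dvg (f e.1, f e.2) ∧
      push f (n - dvg e) = push f n - dvg (f e.1, f e.2) := fun n e => by
    simp only [dvg, push_add, push_sub, push_pt, and_self]
  have key : ∀ (K : ℕ) (n : U → ℤ), mom 0 J' K (push f n) = mom 0 J K n := by
    intro K
    induction K with
    | zero =>
      intro n
      simp only [mom_zero, part, xyWeight, Pi.zero_apply, zero_mul, sum_const_zero, Real.exp_zero, mul_one]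
      rw [integral_chr, integral_chr]
      have : push f n = 0 ↔ n = 0 := by
        refine ⟨fun h' => funext fun u => by rw [← push_apply hf n u, h']; rfl, fun h' => ?_⟩
        subst h'; funext v; simp [push]
      simp only [this]
    | succ K ih =>
      intro n
      rw [mom_succ, mom_succ]
      symm
      refine Finset.sum_of_injOn (fun e => (f e.1, f e.2))
        (fun a _ b _ hab => by simp only [Prod.mk.injEq] at hab; exact Prod.ext (hf hab.1) (hf hab.2))
        (fun e _ => mem_coe.2 (mem_univ _)) (fun e _ he => ?_) fun e _ => ?_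
      · by_contra hne
        have hj : J' e.1 e.2 ≠ 0 := fun hj => hne (by simp [hj])
        obtain ⟨⟨a, ha⟩, b, hb⟩ := h0 _ _ hj
        exact he ⟨(a, b), mem_coe.2 (mem_univ _), by simp [ha, hb]⟩
      · simp only [h, ← ih, (hd n e).1, (hd n e).2]
  have h1 := hasSum_mom 0 J' (push f n)
  have h2 := hasSum_mom 0 J n
  rw [zero_add] at h1 h2
  simp only [key] at h1
  exact h1.unique h2

theorem xyCorr_map {f : U → V} (hf : Function.Injective f) {J : U → U → ℝ} {J' : V → V → ℝ}
    (h : ∀ a b, J' (f a) (f b) = J a b) (h0 : ∀ a b, J' a b ≠ 0 → a ∈ Set.range f ∧ b ∈ Set.range f)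
    (x y : U) : xyCorr J' (f x) (f y) = xyCorr J x y := by
  have e' : push f (pt x - pt y) = pt (f x) - pt (f y) := by rw [push_sub, push_pt, push_pt]
  have e0 : push f (0 : U → ℤ) = 0 := by funext v; simp [push]
  rw [xyCorr_eq, xyCorr_eq, ← e', part_map hf h h0, ← e0, part_map hf h h0]

theorem ham_sym (J : V → V → ℝ) : ham (sym J) = ham J := by
  funext θ
  simp only [ham, sym, add_div, add_mul, sum_add_distrib]
  rw [sum_comm (f := fun a b => J b a / 2 * cosd (θ a - θ b)), ← sum_add_distrib]
  refine sum_congr rfl fun a _ => ?_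
  rw [← sum_add_distrib]
  refine sum_congr rfl fun b _ => ?_
  rw [← neg_sub (θ a), cosd_neg]; ring

theorem xyCorr_sym (J : V → V → ℝ) (x y : V) : xyCorr (sym J) x y = xyCorr J x y := by
  simp only [xyCorr, xyWeight_eq, ham_sym]

theorem xyCorr_le_one (J : V → V → ℝ) (x y : V) : xyCorr J x y ≤ 1 := by
  refine (div_le_one (xy_pos J)).2 (integral_mono
    (integrable_of_continuous ((continuous_cosd.comp (by fun_prop)).mul (continuous_xyWeight J)))
    (integrable_of_continuous (continuous_xyWeight J)) fun θ => ?_)
  exact mul_le_of_le_one_left (Real.exp_pos _).le ((Complex.re_le_norm _).trans_eq (Circle.norm_coe _))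

/-- Two mirror copies of a system coupled across the mirror. -/
noncomputable def mirror (J : U → U → ℝ) (c : U → ℝ) : U ⊕ U → U ⊕ U → ℝ
  | .inl a, .inl b => J a b
  | .inr a, .inr b => J a b
  | .inl a, .inr b => if a = b then c a / 2 else 0
  | .inr a, .inl b => if a = b then c a / 2 else 0

/-- Reflection positivity. -/
theorem reflection (J : U → U → ℝ) {c : U → ℝ} (hc : ∀ a, 0 ≤ c a) (p q : U) :
    xyCorr (mirror J c) (.inl p) (.inr q) ^ 2 ≤
      xyCorr (mirror J c) (.inl p) (.inr p) * xyCorr (mirror J c) (.inl q) (.inr q) := by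
  set M := mirror J c with hM
  set μ := (Measure.pi fun _ : U => (volume : Measure UnitAddCircle))
  set μ₂ := Measure.pi fun _ : U ⊕ U => (volume : Measure UnitAddCircle)
  set e := MeasurableEquiv.sumPiEquivProdPi (fun _ : U ⊕ U => UnitAddCircle)
  have hmp : MeasurePreserving e μ₂ (μ.prod μ) :=
    measurePreserving_sumPiEquivProdPi fun _ : U ⊕ U => (volume : Measure UnitAddCircle)
  set w : U × Bool → (U → UnitAddCircle) → ℝ := fun i t => cond i.2 (cosd (t i.1)) (sind (t i.1)) with hw
  have hwc : ∀ i, Continuous (w i) := by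
    rintro ⟨a, _ | _⟩
    · exact continuous_sind.comp (continuous_apply a)
    · exact continuous_cosd.comp (continuous_apply a)
  have hcs : ∀ s t : UnitAddCircle, cosd (s - t) = cosd s * cosd t + sind s * sind t := fun s t => by
    rw [sub_eq_add_neg, cosd_add, cosd_neg, sind_neg]; ring
  have hpk := pk_series (μ := μ) (c := fun i : U × Bool => c i.1) (fun i => hc _) hwc pk_one
    (a := fun n => ((n.factorial : ℝ))⁻¹) (fun n => by positivity) (e := fun n => n)
    Real.continuous_exp fun z => by
      have h := NormedSpace.expSeries_div_hasSum_exp (𝔸 := ℝ) z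
      rw [← Real.exp_eq_exp_ℝ] at h
      simpa [div_eq_inv_mul] using h
  set G : (U → UnitAddCircle) × (U → UnitAddCircle) → ℝ := fun z =>
    Real.exp (ham J z.1) * Real.exp (ham J z.2) * Real.exp (∑ a, c a * cosd (z.1 a - z.2 a)) with hG
  have hGc : Continuous G := by
    have := continuous_ham J
    refine ((Real.continuous_exp.comp (this.comp continuous_fst)).mul
      (Real.continuous_exp.comp (this.comp continuous_snd))).mul
      (Real.continuous_exp.comp (continuous_finsetSum _ fun a _ => continuous_const.mul
        (continuous_cosd.comp (((continuous_apply a).comp continuous_fst).sub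
          ((continuous_apply a).comp continuous_snd)))))
  set T : U → U → ℝ := fun a b => ∫ z, cosd (z.1 a - z.2 b) * G z ∂μ.prod μ with hT
  have hTi : ∀ a b, Integrable (fun z => cosd (z.1 a - z.2 b) * G z) (μ.prod μ) := fun a b =>
    integrable_of_continuous ((continuous_cosd.comp (((continuous_apply a).comp continuous_fst).sub
      ((continuous_apply b).comp continuous_snd))).mul hGc)
  have hsymm : ∀ a b, T a b = T b a := fun a b => by
    rw [hT]; simp only
    rw [← integral_prod_swap]
    refine integral_congr_ae (ae_of_all _ fun z => ?_)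
    simp only [hG, Prod.fst_swap, Prod.snd_swap]
    rw [← neg_sub (z.1 b), cosd_neg]
    congr 1
    rw [mul_comm (Real.exp (ham J z.2))]
    congr 2
    exact sum_congr rfl fun a _ => by rw [← neg_sub (z.1 a), cosd_neg]
  have hweight : ∀ θ, xyWeight M θ = G (e θ) := fun θ => by
    simp only [xyWeight, hG, ← Real.exp_add, hM]
    congr 1
    simp only [Fintype.sum_sum_type, mirror, sum_add_distrib, ham, ite_mul, zero_mul, sum_ite_eq,
      mem_univ, if_true]
    show _ = (∑ a, ∑ b, J a b * cosd (θ (.inl a) - θ (.inl b))) +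
      (∑ a, ∑ b, J a b * cosd (θ (.inr a) - θ (.inr b))) + ∑ a, c a * cosd (θ (.inl a) - θ (.inr a))
    have : ∑ a, c a / 2 * cosd (θ (.inr a) - θ (.inl a)) = ∑ a, c a / 2 * cosd (θ (.inl a) - θ (.inr a)) :=
      sum_congr rfl fun a _ => by rw [← neg_sub (θ (.inl a)), cosd_neg]
    have h2 : ∑ a, c a * cosd (θ (.inl a) - θ (.inr a)) =
        ∑ a, c a / 2 * cosd (θ (.inl a) - θ (.inr a)) + ∑ a, c a / 2 * cosd (θ (.inl a) - θ (.inr a)) := by
      rw [← sum_add_distrib]; exact sum_congr rfl fun a _ => by ring
    rw [this, h2]; ring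
  have hZ := xy_pos M
  have hcorr : ∀ a b, xyCorr M (.inl a) (.inr b) = T a b / ∫ θ, xyWeight M θ ∂μ₂ := fun a b => by
    rw [xyCorr, hT]
    congr 1
    simp only
    rw [← hmp.integral_comp' (fun z => cosd (z.1 a - z.2 b) * G z)]
    exact integral_congr_ae (ae_of_all _ fun θ => by simp only [hweight]; rfl)
  have hquad : ∀ s : ℝ, 0 ≤ T p p * (s * s) + (-2 * T p q) * s + T q q := by
    intro s
    have hpos : ∀ r : UnitAddCircle → ℝ, Continuous r →
        0 ≤ ∫ z, G z * ((s * r (z.1 p) - r (z.1 q)) * (s * r (z.2 p) - r (z.2 q))) ∂μ.prod μ := by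
      intro r hr
      refine (hpk.2 (fun t => (s * r (t p) - r (t q)) * Real.exp (ham J t))
        ((((continuous_const.mul (hr.comp (continuous_apply p))).sub (hr.comp (continuous_apply q)))).mul
          (Real.continuous_exp.comp (continuous_ham J)))).trans_eq (integral_congr_ae (ae_of_all _ fun z => ?_))
      simp only [pairing, hw, hG, Fintype.sum_prod_type, Fintype.sum_bool, cond_true, cond_false, hcs,
        mul_add]
      ring
    have h := add_nonneg (hpos _ continuous_cosd) (hpos _ continuous_sind)
    have hi : ∀ r : UnitAddCircle → ℝ, Continuous r → Integrable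
        (fun z => G z * ((s * r (z.1 p) - r (z.1 q)) * (s * r (z.2 p) - r (z.2 q)))) (μ.prod μ) := fun r hr => by
      refine integrable_of_continuous (hGc.mul (((continuous_const.mul (hr.comp ((continuous_apply p).comp
        continuous_fst))).sub (hr.comp ((continuous_apply q).comp continuous_fst))).mul
        ((continuous_const.mul (hr.comp ((continuous_apply p).comp continuous_snd))).sub
          (hr.comp ((continuous_apply q).comp continuous_snd)))))
    rw [← integral_add (hi _ continuous_cosd) (hi _ continuous_sind)] at h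
    have e2 : (fun z => G z * ((s * cosd (z.1 p) - cosd (z.1 q)) * (s * cosd (z.2 p) - cosd (z.2 q))) +
        G z * ((s * sind (z.1 p) - sind (z.1 q)) * (s * sind (z.2 p) - sind (z.2 q)))) =
        fun z => (s * s * (cosd (z.1 p - z.2 p) * G z) + -s * (cosd (z.1 p - z.2 q) * G z)) +
          (-s * (cosd (z.1 q - z.2 p) * G z) + cosd (z.1 q - z.2 q) * G z) := by
      funext z; rw [hcs, hcs, hcs, hcs]; ring
    rw [e2, integral_add (((hTi p p).const_mul _).fun_add ((hTi p q).const_mul _))
      (((hTi q p).const_mul _).fun_add (hTi q q)), integral_add ((hTi p p).const_mul _) ((hTi p q).const_mul _),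
      integral_add ((hTi q p).const_mul _) (hTi q q), integral_const_mul, integral_const_mul,
      integral_const_mul] at h
    change 0 ≤ s * s * T p p + -s * T p q + (-s * T q p + T q q) at h
    rw [hsymm q p] at h
    linarith
  have hd := discrim_le_zero hquad
  rw [discrim] at hd
  rw [hcorr, hcorr, hcorr, div_pow, div_mul_div_comm, ← sq]
  exact div_le_div_of_nonneg_right (by nlinarith) (sq_nonneg _)

end Vale.Agent.P159
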