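import Vale.Agent.P159.Lattice

/-!
# P159: the susceptibility against the decay rate, and stability of exponential decay
-/

namespace Vale.Agent.P159

open Finset Vale.Agent.P163

theorem card_sphere_le (A : Finset (ℤ × ℤ)) (x : ℤ × ℤ) (i : ℕ) :
    ((A.filter fun v => nrm (v - x) = i).card : ℝ) ≤ 8 * ((i : ℝ) + 1) := by
  have h : (A.filter fun v => nrm (v - x) = i) ⊆
      ((Icc (-(i : ℤ)) i ×ˢ ({(i : ℤ), -(i : ℤ)} : Finset ℤ)) ∪
        (({(i : ℤ), -(i : ℤ)} : Finset ℤ) ×ˢ Icc (-(i : ℤ)) i)).image (· + x) := by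
    intro v hv
    replace hv := (mem_filter.1 hv).2
    simp only [nrm, Prod.fst_sub, Prod.snd_sub] at hv
    refine mem_image.2 ⟨v - x, ?_, sub_add_cancel v x⟩
    simp only [mem_union, mem_product, mem_Icc, mem_insert, mem_singleton, Prod.fst_sub, Prod.snd_sub]
    omega
  have h2 := ((card_le_card h).trans card_image_le).trans (card_union_le _ _)
  simp only [card_product, Int.card_Icc] at h2
  have h3 : ({(i : ℤ), -(i : ℤ)} : Finset ℤ).card ≤ 2 := card_le_two
  have h4 : ((i : ℤ) + 1 - -(i : ℤ)).toNat = 2 * i + 1 := by omega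
  rw [h4] at h2
  have : (A.filter fun v => nrm (v - x) = i).card ≤ 8 * (i + 1) := by nlinarith
  exact_mod_cast this

theorem exists_sum_nrm (A : Finset (ℤ × ℤ)) (x : ℤ × ℤ) (f : ℕ → ℝ) (hf : ∀ i, 0 ≤ f i) :
    ∃ N, ∑ y ∈ A, f (nrm (y - x)) ≤ ∑ i ∈ range N, 8 * ((i : ℝ) + 1) * f i := by
  refine ⟨A.sup (fun y => nrm (y - x)) + 1, ?_⟩
  rw [← sum_fiberwise_of_maps_to (g := fun y => nrm (y - x))
    (t := range (A.sup (fun y => nrm (y - x)) + 1))
    (fun y hy => mem_range.2 (Nat.lt_succ_of_le (le_sup (f := fun y => nrm (y - x)) hy)))]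
  refine sum_le_sum fun i _ => ?_
  rw [sum_congr rfl (g := fun _ => f i) fun y hy => by rw [(mem_filter.1 hy).2], sum_const, nsmul_eq_mul]
  exact mul_le_mul_of_nonneg_right (card_sphere_le A x i) (hf i)

theorem sum_wt_le {b : ℝ} (hb : 0 ≤ b) (A : Finset (ℤ × ℤ)) (u : ℤ × ℤ) :
    ∑ v ∈ A, wt b u v ≤ 2 * b := by
  set S : Finset (ℤ × ℤ) := {u + (1, 0), u + (-1, 0), u + (0, 1), u + (0, -1)}
  have h : ∑ v ∈ A, wt b u v = ∑ v ∈ A.filter (· ∈ S), wt b u v := by
    refine (sum_filter_of_ne fun v _ hv => ?_).symm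
    simp only [wt, ne_eq, ite_eq_right_iff, not_forall] at hv
    obtain ⟨hv, -⟩ := hv
    simp only [S, mem_insert, mem_singleton, Prod.ext_iff, Prod.fst_add, Prod.snd_add]
    omega
  rw [h]
  refine (sum_le_card_nsmul _ _ (b / 2) fun v _ => by unfold wt; split_ifs <;> linarith).trans ?_
  have hc : (A.filter (· ∈ S)).card ≤ 4 :=
    (card_le_card (fun v hv => (mem_filter.1 hv).2)).trans card_le_four
  rw [nsmul_eq_mul]
  have : ((A.filter (· ∈ S)).card : ℝ) ≤ 4 := by exact_mod_cast hc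
  nlinarith

theorem cosh_sub_one_le {t : ℝ} (ht : t ^ 2 ≤ 1) : Real.cosh t - 1 ≤ t ^ 2 := by
  have h := Real.cosh_le_exp_half_sq t
  have hz : |t ^ 2 / 2| ≤ 1 := by rw [abs_of_nonneg (by positivity)]; linarith
  have h2 := Real.abs_exp_sub_one_le hz
  rw [abs_of_nonneg (a := t ^ 2 / 2) (by positivity)] at h2
  linarith [(abs_le.1 h2).2]

theorem log_step {m m' k : ℕ} (h1 : m ≤ m' + 1) (h2 : m' ≤ m + 1) :
    (Real.log (1 + (min m k : ℕ)) - Real.log (1 + (min m' k : ℕ))) ^ 2 ≤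
      if m ≤ k + 1 then (2 / ((m : ℝ) + 1)) ^ 2 else 0 := by
  split_ifs with hm
  · have key : ∀ p q : ℕ, p ≤ q → q ≤ p + 1 →
        0 ≤ Real.log (1 + q) - Real.log (1 + p) ∧ Real.log (1 + q) - Real.log (1 + p) ≤ 1 / ((p : ℝ) + 1) := by
      intro p q hpq hq
      have hp : (0 : ℝ) < 1 + p := by positivity
      have hq0 : (0 : ℝ) < 1 + q := by positivity
      have hle : (p : ℝ) ≤ q := by exact_mod_cast hpq
      have hq' : (q : ℝ) ≤ p + 1 := by exact_mod_cast hq
      refine ⟨sub_nonneg.2 (Real.log_le_log hp (by linarith)), ?_⟩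
      rw [← Real.log_div hq0.ne' hp.ne']
      refine (Real.log_le_sub_one_of_pos (div_pos hq0 hp)).trans ?_
      rw [div_sub_one hp.ne', add_comm (p : ℝ) 1]
      exact div_le_div_of_nonneg_right (by linarith) hp.le
    refine sq_le_sq' ?_ ?_
    all_goals
      rcases le_total (min m k) (min m' k) with h | h
      · obtain ⟨ha, hb⟩ := key _ _ h (by omega)
        have hx : 1 / (((min m k : ℕ) : ℝ) + 1) ≤ 2 / ((m : ℝ) + 1) := by
          rw [div_le_div_iff₀ (by positivity) (by positivity)]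
          have : m + 1 ≤ 2 * (min m k + 1) := by omega
          have : (m : ℝ) + 1 ≤ 2 * (((min m k : ℕ) : ℝ) + 1) := by exact_mod_cast this
          linarith
        linarith
      · obtain ⟨ha, hb⟩ := key _ _ h (by omega)
        have hx : 1 / (((min m' k : ℕ) : ℝ) + 1) ≤ 2 / ((m : ℝ) + 1) := by
          rw [div_le_div_iff₀ (by positivity) (by positivity)]
          have : m + 1 ≤ 2 * (min m' k + 1) := by omega
          have : (m : ℝ) + 1 ≤ 2 * (((min m' k : ℕ) : ℝ) + 1) := by exact_mod_cast this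
          linarith
        linarith
  · rw [min_eq_right (by omega), min_eq_right (by omega), sub_self, zero_pow two_ne_zero]

/-- Power-law decay at every temperature. -/
theorem corr_power {b B s : ℝ} (hb : 0 ≤ b) (hbB : b ≤ B) (hs0 : 0 < s) (hs1 : s * (128 * B + 2) ≤ 1)
    (A : Finset (ℤ × ℤ)) (x y : ℤ × ℤ) :
    corr b A x y ≤ Real.exp s * Real.exp (-(s / 2) * Real.log (1 + (nrm (y - x) : ℕ))) := by
  by_cases hxy : x ∈ A ∧ y ∈ A
  swap
  · rw [corr, dif_neg hxy]; positivity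
  rw [corr_of_mem b hxy.1 hxy.2, ← Real.exp_add]
  set k := nrm (y - x) with hk
  set a : {v // v ∈ A} → ℝ := fun v => -s * Real.log (1 + (min (nrm (v.1 - x)) k : ℕ))
  refine (mcBryan (lat_nonneg hb) a _ _).trans (Real.exp_le_exp.2 ?_)
  have hax : a ⟨x, hxy.1⟩ - a ⟨y, hxy.2⟩ = s * Real.log (1 + (k : ℕ)) := by
    simp only [a, sub_self, show nrm (0 : ℤ × ℤ) = 0 from rfl, zero_min, Nat.cast_zero, add_zero,
      Real.log_one, ← hk, min_self]
    ring
  have hs2 : s ≤ 1 / 2 := by nlinarith [hb.trans hbB]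
  set f : ℕ → ℝ := fun i => if i ≤ k + 1 then (2 / ((i : ℝ) + 1)) ^ 2 else 0 with hf
  have hf0 : ∀ i, 0 ≤ f i := fun i => by simp only [hf]; split_ifs <;> positivity
  have hrow : ∀ u : {v // v ∈ A}, ∑ v, lat A b u v * (Real.cosh (a u - a v) - 1) ≤
      2 * b * (s ^ 2 * f (nrm (u.1 - x))) := by
    intro u
    refine (sum_le_sum (g := fun v => lat A b u v * (s ^ 2 * f (nrm (u.1 - x)))) fun v _ => ?_).trans ?_
    · by_cases hw : (u.1.1 - v.1.1).natAbs + (u.1.2 - v.1.2).natAbs = 1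
      · refine mul_le_mul_of_nonneg_left ?_ (lat_nonneg hb u v)
        have h1 : nrm (u.1 - x) ≤ nrm (v.1 - x) + 1 := by
          simp only [nrm, Prod.fst_sub, Prod.snd_sub]; omega
        have h2 : nrm (v.1 - x) ≤ nrm (u.1 - x) + 1 := by
          simp only [nrm, Prod.fst_sub, Prod.snd_sub]; omega
        have h3 : (a u - a v) ^ 2 ≤ s ^ 2 * f (nrm (u.1 - x)) := by
          simp only [a]
          rw [← mul_sub, mul_pow, neg_sq]
          exact mul_le_mul_of_nonneg_left (log_step h1 h2) (sq_nonneg s)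
        refine (cosh_sub_one_le (h3.trans ?_)).trans h3
        have hf4 : f (nrm (u.1 - x)) ≤ 4 := by
          simp only [hf]; split_ifs
          · rw [div_pow, div_le_iff₀ (by positivity)]
            nlinarith [(nrm (u.1 - x)).cast_nonneg (α := ℝ)]
          · norm_num
        nlinarith
      · simp [lat, wt, hw]
    · rw [← sum_mul, univ_eq_attach]
      exact mul_le_mul_of_nonneg_right ((sum_attach A (fun v => wt b u.1 v)).le.trans (sum_wt_le hb A u.1))
        (mul_nonneg (sq_nonneg s) (hf0 _))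
  refine (add_le_add_right (sum_le_sum fun u _ => hrow u) _).trans ?_
  rw [← mul_sum, ← mul_sum, univ_eq_attach, sum_attach A (fun v => f (nrm (v - x))), hax]
  obtain ⟨N, hN⟩ := exists_sum_nrm A x f hf0
  have hH : ∑ i ∈ range N, 8 * ((i : ℝ) + 1) * f i ≤ 32 * (2 + Real.log (1 + (k : ℕ))) := by
    refine (sum_le_sum (g := fun i : ℕ => if i ≤ k + 1 then 32 * ((i : ℝ) + 1)⁻¹ else 0) fun i _ => ?_).trans ?_
    · simp only [hf]; split_ifs
      · rw [div_pow]; field_simp; ring_nf; rfl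
      · simp
    rw [← sum_filter]
    refine (sum_le_sum_of_subset_of_nonneg (t := range (k + 2))
      (fun i hi => mem_range.2 (by simp only [mem_filter] at hi; omega)) fun i _ _ => by positivity).trans ?_
    rw [← mul_sum]
    refine mul_le_mul_of_nonneg_left ?_ (by norm_num)
    have h := harmonic_le_one_add_log (k + 2)
    simp only [harmonic, Rat.cast_sum, Rat.cast_inv, Nat.cast_add, Nat.cast_one] at h
    push_cast at h
    refine h.trans ?_
    have h2 : Real.log ((k : ℝ) + 2) ≤ Real.log (1 + (k : ℝ)) + 1 := by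
      have := Real.log_le_sub_one_of_pos (x := ((k : ℝ) + 2) / (1 + k)) (by positivity)
      rw [Real.log_div (by positivity) (by positivity)] at this
      have h3 : ((k : ℝ) + 2) / (1 + k) ≤ 2 := by
        rw [div_le_iff₀ (by positivity)]; linarith [(k.cast_nonneg (α := ℝ))]
      linarith
    linarith
  have hL : 0 ≤ Real.log (1 + (k : ℕ)) := Real.log_nonneg (by simp)
  have hbs : 64 * b * s ^ 2 ≤ s / 2 := by nlinarith [mul_le_mul_of_nonneg_left hbB hs0.le]
  have := mul_le_mul_of_nonneg_left (hN.trans hH) (by positivity : 0 ≤ 2 * b * s ^ 2)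
  nlinarith [mul_le_mul_of_nonneg_right hbs hL]

/-- The susceptibility is at most a power `2 - η` of the inverse rate. -/
theorem susc_le {b B s μ : ℝ} (hb : 0 ≤ b) (hbB : b ≤ B) (hs0 : 0 < s) (hs1 : s * (128 * B + 2) ≤ 1)
    (hμ0 : 0 < μ) (hμ1 : μ ≤ 1) (hr : HasRate b μ) (A : Finset (ℤ × ℤ)) (x : ℤ × ℤ) :
    ∑ y ∈ A, corr b A x y ≤ 512 * Real.exp 1 * μ⁻¹ ^ (2 - s / 4 : ℝ) := by
  set η := s / 4 with hη
  have hs2 : s ≤ 1 := by nlinarith [hb.trans hbB]
  set f : ℕ → ℝ := fun i => Real.exp 1 * (((i : ℝ) + 1) ^ (-η) * Real.exp (-(μ * i / 2)))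
  have hf0 : ∀ i, 0 ≤ f i := fun i => by positivity
  have hle : ∀ y ∈ A, corr b A x y ≤ f (nrm (y - x)) := by
    intro y _
    refine le_of_pow_le_pow_left₀ two_ne_zero (hf0 _) ?_
    rw [sq]
    refine (mul_le_mul (corr_decay hb hμ0.le hr A x y) (corr_power hb hbB hs0 hs1 A x y)
      (corr_nonneg hb _ _ _) (by positivity)).trans ?_
    have hrp : ((nrm (y - x) : ℝ) + 1) ^ (-η) = Real.exp (Real.log (1 + (nrm (y - x) : ℕ)) * -η) := by
      rw [add_comm, Real.rpow_def_of_pos (by positivity)]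
    simp only [f, hrp, ← Real.exp_add, ← Real.exp_nat_mul]
    refine Real.exp_le_exp.2 ?_
    simp only [hη]
    push_cast
    linarith
  obtain ⟨N, hN⟩ := exists_sum_nrm A x f hf0
  refine ((sum_le_sum hle).trans hN).trans ?_
  have hterm : ∀ i : ℕ, 8 * ((i : ℝ) + 1) * f i ≤
      64 * Real.exp 1 * μ⁻¹ ^ (1 - η) * Real.exp (-(μ / 4)) ^ i := by
    intro i
    have hz : (μ * ((i : ℝ) + 1)) ^ (1 - η) ≤ 1 + μ * ((i : ℝ) + 1) := by
      have h0 : 0 ≤ μ * ((i : ℝ) + 1) := by positivity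
      rcases le_total (μ * ((i : ℝ) + 1)) 1 with h | h
      · linarith [Real.rpow_le_one h0 h (by linarith : 0 ≤ 1 - η)]
      · linarith [Real.rpow_le_self_of_one_le h (by linarith : 1 - η ≤ 1)]
    have he : 1 + μ * ((i : ℝ) + 1) ≤ 8 * Real.exp (μ * i / 4) := by
      nlinarith [Real.add_one_le_exp (μ * i / 4), mul_nonneg hμ0.le (i.cast_nonneg (α := ℝ))]
    have hsplit : ((i : ℝ) + 1) * ((i : ℝ) + 1) ^ (-η) = μ⁻¹ ^ (1 - η) * (μ * ((i : ℝ) + 1)) ^ (1 - η) := by
      rw [← Real.mul_rpow (by positivity) (by positivity), inv_mul_cancel_left₀ hμ0.ne',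
        show 1 - η = 1 + -η by ring, Real.rpow_add (by positivity), Real.rpow_one]
    have hexp : Real.exp (μ * i / 4) * Real.exp (-(μ * i / 2)) = Real.exp (-(μ / 4)) ^ i := by
      rw [← Real.exp_add, ← Real.exp_nat_mul]; congr 1; ring
    calc 8 * ((i : ℝ) + 1) * f i
        = 8 * Real.exp 1 * (((i : ℝ) + 1) * ((i : ℝ) + 1) ^ (-η)) * Real.exp (-(μ * i / 2)) := by
          simp only [f]; ring
      _ ≤ 8 * Real.exp 1 * (μ⁻¹ ^ (1 - η) * (8 * Real.exp (μ * i / 4))) * Real.exp (-(μ * i / 2)) := by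
          rw [hsplit]
          refine mul_le_mul_of_nonneg_right (mul_le_mul_of_nonneg_left
            (mul_le_mul_of_nonneg_left (hz.trans he) (by positivity)) (by positivity)) (Real.exp_pos _).le
      _ = _ := by rw [← hexp]; ring
  refine (sum_le_sum fun i _ => hterm i).trans ?_
  rw [← mul_sum]
  have hgeo : ∑ i ∈ range N, Real.exp (-(μ / 4)) ^ i ≤ 8 / μ := by
    have hq : Real.exp (-(μ / 4)) ≤ 1 / (1 + μ / 4) := by
      rw [Real.exp_neg, ← one_div]
      exact one_div_le_one_div_of_le (by positivity) (by linarith [Real.add_one_le_exp (μ / 4)])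
    have hh : μ / 8 ≤ 1 - Real.exp (-(μ / 4)) := by
      have : 1 / (1 + μ / 4) ≤ 1 - μ / 8 := by rw [div_le_iff₀ (by positivity)]; nlinarith
      linarith
    rw [le_div_iff₀ hμ0]
    have h0 : 0 ≤ ∑ i ∈ range N, Real.exp (-(μ / 4)) ^ i := by positivity
    have h1 := mul_le_mul_of_nonneg_left hh h0
    rw [geom_sum_mul_neg] at h1
    linarith [pow_nonneg (Real.exp_pos (-(μ / 4))).le N]
  refine (mul_le_mul_of_nonneg_left hgeo (by positivity)).trans_eq ?_
  rw [show (2 : ℝ) - η = (1 - η) + 1 by ring, Real.rpow_add (by positivity), Real.rpow_one]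
  ring

theorem lat_add (A : Finset (ℤ × ℤ)) (b δ : ℝ) : lat A b + lat A δ = lat A (b + δ) := by
  funext p q
  simp only [Pi.add_apply, lat, wt]
  split_ifs <;> ring

/-- The susceptibility is stable: `χ' ≤ χ / (1 - 2 δ χ)`. -/
theorem susc_step {b δ X : ℝ} (hb : 0 ≤ b) (hδ : 0 ≤ δ)
    (hX : ∀ (A : Finset (ℤ × ℤ)) (x : ℤ × ℤ), ∑ y ∈ A, corr b A x y ≤ X) (h : 2 * δ * X < 1)
    (A : Finset (ℤ × ℤ)) (x : ℤ × ℤ) : ∑ y ∈ A, corr (b + δ) A x y ≤ X / (1 - 2 * δ * X) := by
  have hX0 : 0 ≤ X := (sum_nonneg fun y _ => corr_nonneg hb A x y).trans (hX A x)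
  by_cases hx : x ∈ A
  swap
  · rw [sum_eq_zero fun y _ => by rw [corr, dif_neg fun h' => hx h'.1]]
    exact div_nonneg hX0 (by linarith)
  set g : ℤ × ℤ → ℝ := fun x => ∑ y ∈ A, corr (b + δ) A x y with hg
  obtain ⟨z, hz, hmax⟩ := exists_max_image A g ⟨x, hx⟩
  refine (hmax x hx).trans ?_
  rw [le_div_iff₀ (by linarith)]
  set c₀ := xyCorr (lat A b) ⟨z, hz⟩ with hc₀
  have hsum : ∀ (b : ℝ) (w : {v // v ∈ A}), ∑ y, xyCorr (lat A b) w y = ∑ y ∈ A, corr b A w.1 y := by
    intro b w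
    rw [univ_eq_attach, ← sum_attach A (fun y => corr b A w.1 y)]
    exact sum_congr rfl fun y _ => (corr_of_mem b w.2 y.2).symm
  have hM : 0 ≤ g z := sum_nonneg fun y _ => corr_nonneg (by linarith) A z y
  have key := sum_le_sum fun y (_ : y ∈ univ) =>
    resolvent (lat_nonneg hb) (lat_nonneg hδ) (⟨z, hz⟩ : {v // v ∈ A}) y
  simp only [lat_add, sum_add_distrib, hsum] at key
  rw [sum_comm] at key
  simp only [← mul_sum] at key
  have h2 : ∀ u, ∑ y, ∑ v, sym (lat A δ) u v * xyCorr (lat A (b + δ)) v y ≤ 2 * δ * g z := by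
    intro u
    rw [sum_comm]
    simp only [← mul_sum, hsum, sym_lat]
    refine (sum_le_sum fun v _ => mul_le_mul_of_nonneg_left (hmax v.1 v.2) (lat_nonneg hδ u v)).trans ?_
    rw [← sum_mul, univ_eq_attach]
    exact mul_le_mul_of_nonneg_right ((sum_attach A (fun v => wt δ u.1 v)).le.trans (sum_wt_le hδ A u.1)) hM
  have h3 := sum_le_sum fun u (_ : u ∈ univ) =>
    mul_le_mul_of_nonneg_left (h2 u) (xyCorr_nonneg _ (lat_nonneg hb) (⟨z, hz⟩ : {v // v ∈ A}) u)
  rw [← sum_mul (a := 2 * δ * g z), hsum] at h3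
  have h4 := hX A z
  have h5 := mul_le_mul_of_nonneg_right h4 (by positivity : 0 ≤ 2 * δ * g z)
  change g z ≤ _ at key
  nlinarith

theorem nrm_tri (x v y : ℤ × ℤ) : nrm (y - x) ≤ nrm (y - v) + nrm (v - x) := by
  obtain ⟨x₁, x₂⟩ := x; obtain ⟨v₁, v₂⟩ := v; obtain ⟨y₁, y₂⟩ := y
  simp only [nrm, Prod.mk_sub_mk]
  omega

theorem nrm_nbr {u v : ℤ × ℤ} (x : ℤ × ℤ) (h : (u.1 - v.1).natAbs + (u.2 - v.2).natAbs = 1) :
    nrm (v - x) ≤ nrm (u - x) + 1 := by
  simp only [nrm, Prod.fst_sub, Prod.snd_sub]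
  omega

/-- The first exit from a square of radius `R`. -/
theorem shell_step {b c : ℝ} (hb : 0 ≤ b) (hc : 0 ≤ c) (R : ℕ) (A : Finset (ℤ × ℤ)) (x y : ℤ × ℤ)
    (hx : x ∈ A) (hy : y ∈ A) (hn : R < nrm (y - x))
    (hv' : ∀ v ∈ A, nrm (y - x) ≤ nrm (y - v) + (R + 1) → corr b A v y ≤ c) :
    corr b A x y ≤
      (∑ u ∈ (box R).filter (fun u => nrm u = R), corr b (box R) 0 u) * (2 * b * c) := by
  have hxy : x ∈ A ∧ y ∈ A := ⟨hx, hy⟩
  set B := A.filter (fun u => nrm (u - x) ≤ R) with hB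
  set J₀ : {v // v ∈ A} → {v // v ∈ A} → ℝ := fun p q =>
    if p.1 ∈ B ∧ q.1 ∈ B then lat A b p q else 0 with hJ₀
  set J₁ : {v // v ∈ A} → {v // v ∈ A} → ℝ := fun p q =>
    if p.1 ∈ B ∧ q.1 ∈ B then 0 else lat A b p q with hJ₁
  have hJ : J₀ + J₁ = lat A b := by funext p q; simp only [Pi.add_apply, hJ₀, hJ₁]; split_ifs <;> ring
  have h₀ : ∀ p q, 0 ≤ J₀ p q := fun p q => by
    simp only [hJ₀]; split_ifs
    · exact lat_nonneg hb _ _
    · exact le_rfl
  have h₁ : ∀ p q, 0 ≤ J₁ p q := fun p q => by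
    simp only [hJ₁]; split_ifs
    · exact le_rfl
    · exact lat_nonneg hb _ _
  have hyB : y ∉ B := fun h => by
    have := (mem_filter.1 h).2
    omega
  have hxB : x ∈ B := mem_filter.2 ⟨hxy.1, by simp [nrm]⟩
  have hiso : ∀ u : {v // v ∈ A}, u.1 ∉ B → xyCorr J₀ ⟨x, hxy.1⟩ u = 0 := fun u hu =>
    xyCorr_isolated (fun h => hu (h ▸ hxB)) fun c => ⟨by simp [hJ₀, hu], by simp [hJ₀, hu]⟩
  rw [corr_of_mem b hxy.1 hxy.2, ← hJ]
  refine (resolvent h₀ h₁ _ _).trans ?_
  rw [hiso ⟨y, hxy.2⟩ hyB, zero_add, hJ]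
  have hterm : ∀ u : {v // v ∈ A}, xyCorr J₀ ⟨x, hxy.1⟩ u *
      (∑ v, sym J₁ u v * xyCorr (lat A b) v ⟨y, hxy.2⟩) ≤
      (if nrm (u.1 - x) = R then corr b (box R) 0 (u.1 - x) else 0) * (2 * b * c) := by
    intro u
    by_cases hu : u.1 ∈ B
    swap
    · rw [hiso u hu, zero_mul]
      refine mul_nonneg ?_ (by positivity)
      split_ifs
      · exact corr_nonneg hb _ _ _
      · exact le_rfl
    have huR := (mem_filter.1 hu).2
    have hsym : ∀ v, sym J₁ u v = if v.1 ∈ B then 0 else lat A b u v := fun v => by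
      simp only [sym, hJ₁, hu, true_and, and_true]
      split_ifs
      · simp
      · have := sym_lat A b u v; simpa [sym] using this
    have hcorr : xyCorr J₀ ⟨x, hxy.1⟩ u ≤ corr b (box R) 0 (u.1 - x) := by
      have e := xyCorr_map (f := fun v : {v // v ∈ B} => (⟨v.1, (mem_filter.1 v.2).1⟩ : {v // v ∈ A}))
        (fun p q hpq => Subtype.ext (Subtype.mk.inj hpq)) (J := lat B b) (J' := J₀)
        (fun p q => by simp [hJ₀, lat, p.2, q.2])
        (fun p q hne => by
          by_cases hm : p.1 ∈ B ∧ q.1 ∈ B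
          · exact ⟨⟨⟨p.1, hm.1⟩, rfl⟩, ⟨⟨q.1, hm.2⟩, rfl⟩⟩
          · simp [hJ₀, hm] at hne) ⟨x, hxB⟩ ⟨u.1, hu⟩
      rw [e, ← corr_of_mem b hxB hu, ← corr_shift b B (-x) x u.1, add_neg_cancel, ← sub_eq_add_neg]
      refine corr_mono_set hb (fun v hv => ?_) _ _
      obtain ⟨w, hw, rfl⟩ := mem_image.1 hv
      have := (mem_filter.1 hw).2
      simp only [nrm, Prod.fst_sub, Prod.snd_sub] at this
      simp only [box, mem_Icc, Prod.le_def, Prod.fst_add, Prod.snd_add, Prod.fst_neg, Prod.snd_neg]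
      omega
    split_ifs with hRe
    · refine mul_le_mul hcorr ?_ (sum_nonneg fun v _ => mul_nonneg ?_ (xyCorr_nonneg _ (lat_nonneg hb) _ _))
        (corr_nonneg hb _ _ _)
      · refine (sum_le_sum (g := fun v => lat A b u v * c) fun v _ => ?_).trans ?_
        · rw [hsym]
          split_ifs with hv
          · rw [zero_mul]; exact mul_nonneg (lat_nonneg hb _ _) hc
          · by_cases hw : (u.1.1 - v.1.1).natAbs + (u.1.2 - v.1.2).natAbs = 1
            · refine mul_le_mul_of_nonneg_left ?_ (lat_nonneg hb _ _)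
              rw [← corr_of_mem b v.2 hxy.2]
              refine hv' v.1 v.2 ?_
              have h1 := nrm_tri x v.1 y
              have h2 := nrm_nbr x hw
              omega
            · simp [lat, wt, hw]
        · rw [← sum_mul, univ_eq_attach]
          exact mul_le_mul_of_nonneg_right
            ((sum_attach A (fun v => wt b u.1 v)).le.trans (sum_wt_le hb A u.1)) hc
      · rw [hsym]; split_ifs
        · exact le_rfl
        · exact lat_nonneg hb _ _
    · rw [zero_mul]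
      refine mul_nonpos_of_nonneg_of_nonpos (xyCorr_nonneg _ h₀ _ _) (sum_nonpos fun v _ => ?_)
      rw [hsym]
      split_ifs with hv
      · simp
      · by_cases hw : (u.1.1 - v.1.1).natAbs + (u.1.2 - v.1.2).natAbs = 1
        · refine absurd (mem_filter.2 ⟨v.2, ?_⟩) hv
          have := nrm_nbr x hw
          omega
        · simp [lat, wt, hw]
  refine (sum_le_sum fun u _ => hterm u).trans ?_
  rw [← sum_mul, univ_eq_attach,
    sum_attach A (fun u => if nrm (u - x) = R then corr b (box R) 0 (u - x) else 0), ← sum_filter]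
  refine mul_le_mul_of_nonneg_right ?_ (by positivity)
  rw [← sum_image (g := fun u => u - x) fun a _ c _ hac => sub_left_injective hac]
  refine sum_le_sum_of_subset_of_nonneg (fun v hv => ?_) fun v _ _ => corr_nonneg hb _ _ _
  obtain ⟨w, hw, rfl⟩ := mem_image.1 hv
  have := (mem_filter.1 hw).2
  refine mem_filter.2 ⟨?_, this⟩
  simp only [nrm, Prod.fst_sub, Prod.snd_sub] at this
  simp only [box, mem_Icc, Prod.le_def, Prod.fst_sub, Prod.snd_sub]
  omega

/-- A bounded susceptibility gives exponential decay. -/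
theorem rate_of_susc {b X : ℝ} (hb : 0 ≤ b)
    (hX : ∀ (A : Finset (ℤ × ℤ)) (x : ℤ × ℤ), ∑ y ∈ A, corr b A x y ≤ X) :
    ∃ μ, 0 < μ ∧ HasRate b μ := by
  obtain ⟨N, hN0, hN⟩ : ∃ N : ℕ, 0 < N ∧ 4 * b * X ≤ N :=
    ⟨⌈4 * b * X⌉₊ + 1, Nat.succ_pos _, (Nat.le_ceil _).trans (by simp)⟩
  set S : ℕ → ℝ := fun R => ∑ u ∈ (box N).filter (fun u => nrm u = R), corr b (box N) 0 u with hS
  have hsum : ∑ R ∈ range N, S R ≤ X := by
    refine le_trans ?_ (hX (box N) 0)
    simp only [hS, sum_fiberwise_eq_sum_filter]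
    exact sum_le_sum_of_subset_of_nonneg (filter_subset _ _) fun u _ _ => corr_nonneg hb _ _ _
  obtain ⟨R, hR, hSR⟩ : ∃ R ∈ range N, S R * N ≤ X := by
    by_contra hc
    push Not at hc
    have := sum_lt_sum_of_nonempty (nonempty_range_iff.2 hN0.ne') hc
    rw [← sum_mul, sum_const, card_range, nsmul_eq_mul, mul_comm (N : ℝ) X] at this
    exact absurd (mul_le_mul_of_nonneg_right hsum N.cast_nonneg) (not_le.2 this)
  have hS2 : S R * (2 * b) ≤ 1 / 2 := by
    have h1 := mul_le_mul_of_nonneg_left hSR hb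
    nlinarith [(by exact_mod_cast hN0 : (0 : ℝ) < N)]
  have hRN : R < N := mem_range.1 hR
  have dec : ∀ (n : ℕ) (A : Finset (ℤ × ℤ)) (x y : ℤ × ℤ), n * (R + 1) ≤ nrm (y - x) →
      corr b A x y ≤ (1 / 2) ^ n := by
    intro n
    induction n with
    | zero => intro A x y _; simpa using corr_le_one b A x y
    | succ n ih =>
      intro A x y hn
      by_cases hxy : x ∈ A ∧ y ∈ A
      swap
      · rw [corr, dif_neg hxy]; positivity
      refine (shell_step hb (by positivity) R A x y hxy.1 hxy.2 ?_ fun v _ hle => ih A v y ?_).trans ?_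
      · rw [Nat.succ_mul] at hn; omega
      · rw [Nat.succ_mul] at hn; omega
      have hle : ∑ u ∈ (box R).filter (fun u => nrm u = R), corr b (box R) 0 u ≤ S R :=
        (sum_le_sum fun u _ => corr_mono_set hb (box_mono hRN.le) 0 u).trans
          (sum_le_sum_of_subset_of_nonneg (filter_subset_filter _ (box_mono hRN.le))
            fun u _ _ => corr_nonneg hb _ _ _)
      refine (mul_le_mul_of_nonneg_right hle (by positivity)).trans ?_
      calc S R * (2 * b * (1 / 2) ^ n) = S R * (2 * b) * (1 / 2) ^ n := by ring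
        _ ≤ 1 / 2 * (1 / 2) ^ n := mul_le_mul_of_nonneg_right hS2 (by positivity)
        _ = _ := by ring
  refine ⟨Real.log 2 / (R + 1), by positivity, 2, fun r => ciSup_le fun M => ?_⟩
  refine (dec (r / (R + 1)) (box M) _ _ ?_).trans ?_
  · simp only [nrm, Prod.fst_sub, Prod.snd_sub, sub_zero, Int.natAbs_natCast]
    exact le_max_of_le_left (Nat.div_mul_le_self r (R + 1))
  · set q := r / (R + 1)
    have hr : r < (q + 1) * (R + 1) := Nat.lt_mul_of_div_lt (Nat.lt_succ_self _) (Nat.succ_pos _)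
    have hr' : (r : ℝ) ≤ ((q : ℝ) + 1) * ((R : ℝ) + 1) := by exact_mod_cast hr.le
    rw [show ((1 : ℝ) / 2) ^ q = Real.exp (-Real.log 2) ^ q by
        rw [Real.exp_neg, Real.exp_log two_pos, one_div],
      ← Real.exp_nat_mul, show (2 : ℝ) = Real.exp (Real.log 2) from (Real.exp_log two_pos).symm,
      ← Real.exp_add, Real.log_exp]
    refine Real.exp_le_exp.2 ?_
    have h := mul_le_mul_of_nonneg_left hr' (by positivity : 0 ≤ Real.log 2 / ((R : ℝ) + 1))
    rw [show Real.log 2 / ((R : ℝ) + 1) * (((q : ℝ) + 1) * ((R : ℝ) + 1)) = Real.log 2 * ((q : ℝ) + 1) by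
      field_simp] at h
    linarith

end Vale.Agent.P159
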